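import Vale.Agent.P365.H219.TL2
import Vale.Agent.P365.T1.FarT16

/-!
# P365-T2, T-L, part 3: the Wegner bound of `EMG` (input of `LG_growth_stage`)
-/

set_option linter.all false

namespace P365H219

open Finset MeasureTheory Matrix Filter Topology
open P365L P365O P365T1 Vale.Agent.P365.J376
open scoped ENNReal

section lab

variable {ι : Type*} [Fintype ι] [DecidableEq ι] {Λ : Type*} [Fintype Λ] {p : Λ → ℝ}

/-- one-site marginal of the label law -/
theorem sum_marg1 (hp1 : ∑ k, p k = 1) (x : ι) (f : Λ → ℝ) :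
    ∑ l : ι → Λ, (∏ z, p (l z)) * f (l x) = ∑ k, p k * f k := by
  have h1 : ∀ l : ι → Λ, (∏ z, p (l z)) * f (l x) =
      ∏ z, (if z = x then p (l z) * f (l z) else p (l z)) := by
    intro l
    rw [← Finset.mul_prod_erase Finset.univ (fun z => p (l z)) (Finset.mem_univ x),
      ← Finset.mul_prod_erase Finset.univ
        (fun z => if z = x then p (l z) * f (l z) else p (l z)) (Finset.mem_univ x)]
    rw [if_pos rfl]
    have : ∏ z ∈ Finset.univ.erase x, (if z = x then p (l z) * f (l z) else p (l z)) =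
        ∏ z ∈ Finset.univ.erase x, p (l z) :=
      Finset.prod_congr rfl fun z hz => if_neg (Finset.ne_of_mem_erase hz)
    rw [this]
    ring
  simp only [h1]
  rw [← Fintype.piFinset_univ, Finset.sum_prod_piFinset Finset.univ
    (fun z k => if z = x then p k * f k else p k),
    ← Finset.mul_prod_erase Finset.univ _ (Finset.mem_univ x)]
  rw [Finset.prod_eq_one fun z hz => ?_, mul_one]
  · simp
  · simp only [if_neg (Finset.ne_of_mem_erase hz)]
    exact hp1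

end lab

section em

variable {ι : Type*} [Fintype ι] [DecidableEq ι] {A : Matrix ι ι ℝ}
  {Λ : Type*} [Fintype Λ] {p : Λ → ℝ} {ν : Λ → Measure ℝ} {E : ℝ}

theorem Ex_mm_le (hA : A.IsSymm) (ν : ι → Measure ℝ) [∀ x, IsProbabilityMeasure (ν x)]
    {e : ι → ℝ} (he : ∀ x, 0 < e x) (x : ι) {D : ℝ} (hD0 : 0 ≤ D) (hD : DensLe D (ν x)) :
    Ex ν E e (fun W => mm A W x) ≤ Real.pi * D := by
  have h1 := lint_mm_le (E := E) hA he ν x hD
  unfold Ex
  rw [integral_eq_lintegral_of_nonneg_ae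
    (Eventually.of_forall fun v => (mm_pos hA (WV_neg he v) x).le)
    (measurable_mm_WV E e x).aestronglyMeasurable]
  exact ENNReal.toReal_le_of_le_ofReal (by positivity) h1

/-- **Wegner**: `∑ P ∑_x e_x E m_x ≤ π ∑ P ∑_x e_x D_{l x}` -/
theorem EMG_le (hA : A.IsSymm) [∀ k, IsProbabilityMeasure (ν k)] (hp : ∀ k, 0 ≤ p k)
    {e : (ι → Λ) → ι → ℝ} (he : ∀ l x, 0 < e l x) {Dd : Λ → ℝ} (hD0 : ∀ k, 0 ≤ Dd k)
    (hD : ∀ k, DensLe (Dd k) (ν k)) :
    EMG A p ν E e ≤ Real.pi * ∑ l : ι → Λ, (∏ x, p (l x)) * ∑ x, e l x * Dd (l x) := by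
  unfold EMG SG
  rw [Finset.mul_sum]
  refine Finset.sum_le_sum fun l _ => ?_
  rw [mul_left_comm]
  refine mul_le_mul_of_nonneg_left ?_ (Finset.prod_nonneg fun x _ => hp _)
  rw [Finset.mul_sum]
  refine Finset.sum_le_sum fun x _ => ?_
  rw [mul_left_comm]
  exact mul_le_mul_of_nonneg_left
    (Ex_mm_le hA (fun x => ν (l x)) (he l) x (hD0 _) (hD _)) (he l x).le

/-- all levels at most `ε`: `EMG ≤ π ε (∑ p_k D_k) · #sites` -/
theorem EMG_le_sup (hA : A.IsSymm) [∀ k, IsProbabilityMeasure (ν k)] (hp : ∀ k, 0 ≤ p k)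
    (hp1 : ∑ k, p k = 1) {e : (ι → Λ) → ι → ℝ} (he : ∀ l x, 0 < e l x) {Dd : Λ → ℝ}
    (hD0 : ∀ k, 0 ≤ Dd k) (hD : ∀ k, DensLe (Dd k) (ν k)) {ε Db : ℝ} (hε : ∀ l x, e l x ≤ ε)
    (hDb : ∑ k, p k * Dd k ≤ Db) (hε0 : 0 ≤ ε) :
    EMG A p ν E e ≤ Real.pi * ε * Db * Fintype.card ι := by
  refine (EMG_le hA hp he hD0 hD).trans ?_
  have h1 : ∑ l : ι → Λ, (∏ x, p (l x)) * ∑ x, e l x * Dd (l x) ≤
      ∑ l : ι → Λ, (∏ x, p (l x)) * ∑ x, ε * Dd (l x) :=
    Finset.sum_le_sum fun l _ => mul_le_mul_of_nonneg_left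
      (Finset.sum_le_sum fun x _ => mul_le_mul_of_nonneg_right (hε l x) (hD0 _))
      (Finset.prod_nonneg fun x _ => hp _)
  have h2 : ∑ l : ι → Λ, (∏ x, p (l x)) * ∑ x, ε * Dd (l x) =
      ε * ((∑ k, p k * Dd k) * Fintype.card ι) := by
    have h3 : ∀ l : ι → Λ, (∏ x, p (l x)) * ∑ x, ε * Dd (l x) =
        ∑ x, ε * ((∏ z, p (l z)) * Dd (l x)) := fun l => by
      rw [Finset.mul_sum]
      exact Finset.sum_congr rfl fun x _ => by ring
    simp only [h3]
    rw [Finset.sum_comm]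
    simp only [← Finset.mul_sum]
    rw [Finset.sum_congr rfl fun x _ => sum_marg1 hp1 x Dd, Finset.sum_const,
      Finset.card_univ, nsmul_eq_mul, mul_comm (Fintype.card ι : ℝ)]
  rw [h2] at h1
  calc Real.pi * ∑ l : ι → Λ, (∏ x, p (l x)) * ∑ x, e l x * Dd (l x)
      ≤ Real.pi * (ε * ((∑ k, p k * Dd k) * Fintype.card ι)) :=
        mul_le_mul_of_nonneg_left h1 Real.pi_pos.le
    _ ≤ Real.pi * (ε * (Db * Fintype.card ι)) := by
        have := Real.pi_pos
        gcongr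
    _ = _ := by ring

end em

end P365H219
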