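import Vale.Agent.P365.H219.TL
import Vale.Agent.P365.V4.Def

/-!
# P365-T2, T-L, part 2: boundary values of the logarithmic energy, growth over a stage
-/

set_option linter.all false

namespace P365H219

open Finset MeasureTheory Matrix Filter Topology
open P365L P365O P365T1 Vale.Agent.P365.J376

section avg

variable {ι : Type*} [Fintype ι] [DecidableEq ι] {A : Matrix ι ι ℝ}
  {Λ : Type*} [Fintype Λ] {p : Λ → ℝ} {ν : Λ → Measure ℝ} {E : ℝ}
  {κ : Type*} [Fintype κ] {a : κ → ι → ℝ}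

theorem integrable_En_WV (hA : A.IsSymm) (m : Measure (ι → ℝ)) [IsFiniteMeasure m] (E : ℝ)
    {e : ι → ℝ} (he : ∀ x, 0 < e x) (f : ι → ℝ) :
    Integrable (fun v => En A (WV E e v) f) m :=
  integrable_En_Wp hA (a := fun (v : ι → ℝ) x => v x - E) (h := fun _ => e)
    (fun x => measurable_coord_sub E x) (fun x => measurable_const) (fun _ x => he x) f

theorem e_mul_mm_le_one (hA : A.IsSymm) {W : ι → ℂ} (hW : ∀ x, (W x).im < 0) (x : ι) :
    (-(W x).im) * mm A W x ≤ 1 := by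
  have h1 := e_mul_KK_le hA hW x x
  have h5 : mm A W x ^ 2 ≤ KK A W x x := by
    unfold mm KK
    rw [← sq_abs]
    exact pow_le_pow_left₀ (abs_nonneg _) (Complex.abs_im_le_norm _) 2
  have h6 := mm_pos hA hW x
  have h7 : 0 < -(W x).im := by linarith [hW x]
  have h8 : (-(W x).im) * mm A W x * mm A W x ≤ 1 * mm A W x := by
    have := mul_le_mul_of_nonneg_left h5 h7.le
    nlinarith
  exact le_of_mul_le_mul_right h8 h6

theorem integrable_mm (hA : A.IsSymm) (m : Measure (ι → ℝ)) [IsFiniteMeasure m] (E : ℝ)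
    {e : ι → ℝ} (he : ∀ x, 0 < e x) (x : ι) :
    Integrable (fun v => mm A (WV E e v) x) m := by
  refine Integrable.mono' (integrable_const ((e x)⁻¹))
    (measurable_mm_WV E e x).aestronglyMeasurable (Eventually.of_forall fun v => ?_)
  rw [Real.norm_eq_abs, abs_of_nonneg (mm_pos hA (WV_neg he v) x).le]
  have h1 := e_mul_mm_le_one hA (WV_neg (E := E) he v) x
  rw [WV_im0, neg_neg] at h1
  rw [← one_div, le_div_iff₀ (he x)]
  linarith

theorem measurable_M4 (E : ℝ) (e : ι → ℝ) :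
    Measurable fun v : ι → ℝ => ∑ x, ∑ y, (-((WV E e v) x).im) * (-((WV E e v) y).im) *
      KK A (WV E e v) x y * d2 a x y ^ 2 := by
  simp only [WV_im0, neg_neg]
  have hG : ∀ x y : ι, Measurable fun v : ι → ℝ => Gr A (WV E e v) x y := fun x y =>
    measurable_Gr_Wp (a := fun (v : ι → ℝ) x => v x - E) (h := fun _ => e)
      (fun x => measurable_coord_sub E x) (fun x => measurable_const) x y
  refine Finset.measurable_sum _ fun x _ => Finset.measurable_sum _ fun y _ => ?_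
  refine Measurable.mul_const ?_ _
  unfold KK
  exact ((hG x y).norm.pow_const 2).const_mul _

theorem integrable_M4 (hA : A.IsSymm) (m : Measure (ι → ℝ)) [IsFiniteMeasure m] (E : ℝ)
    {e : ι → ℝ} (he : ∀ x, 0 < e x) :
    Integrable (fun v => ∑ x, ∑ y, (-((WV E e v) x).im) * (-((WV E e v) y).im) *
      KK A (WV E e v) x y * d2 a x y ^ 2) m := by
  refine Integrable.mono' (integrable_const (∑ x, ∑ y, d2 a x y ^ 2))
    (measurable_M4 E e).aestronglyMeasurable (Eventually.of_forall fun v => ?_)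
  have h0 : ∀ x y, 0 ≤ (-((WV E e v) x).im) * (-((WV E e v) y).im) * KK A (WV E e v) x y :=
    fun x y => by
      have h1 := WV_neg (E := E) he v x
      have h2 := WV_neg (E := E) he v y
      exact mul_nonneg (mul_nonneg (by linarith) (by linarith)) (KK_nonneg _ _)
  rw [Real.norm_eq_abs, abs_of_nonneg (Finset.sum_nonneg fun x _ => Finset.sum_nonneg fun y _ =>
    mul_nonneg (h0 x y) (sq_nonneg _))]
  refine Finset.sum_le_sum fun x _ => Finset.sum_le_sum fun y _ => ?_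
  have h1 := e_mul_KK_mul_e_le hA (WV_neg (E := E) he v) x y
  have h2 : 0 ≤ d2 a x y ^ 2 := sq_nonneg _
  nlinarith

/-- the difference of two energies as one average -/
theorem PhiG_sub_eq (hA : A.IsSymm) [∀ k, IsProbabilityMeasure (ν k)] (j : ℕ)
    {e : (ι → Λ) → ι → ℝ} (he : ∀ l x, 0 < e l x) :
    PhiG A p ν E a e - PhiG A p ν E (Fj a j) e =
      AvG p ν E e fun _ W => ∑ k, En A W (a k) - ∑ q, En A W (Fj a j q) := by
  unfold PhiG AvG Ex
  rw [← Finset.sum_sub_distrib]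
  refine Finset.sum_congr rfl fun l _ => ?_
  rw [← mul_sub, integral_sub]
  · exact integrable_finset_sum _ fun k _ => integrable_En_WV hA _ E (he l) (a k)
  · exact integrable_finset_sum _ fun q _ => integrable_En_WV hA _ E (he l) (Fj a j q)

theorem AvG_mono (hp : ∀ k, 0 ≤ p k) {e : (ι → Λ) → ι → ℝ} {G H : (ι → Λ) → (ι → ℂ) → ℝ}
    (hG : ∀ l, Integrable (fun v => G l (WV E (e l) v)) (Measure.pi fun x => ν (l x)))
    (hH : ∀ l, Integrable (fun v => H l (WV E (e l) v)) (Measure.pi fun x => ν (l x)))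
    (h : ∀ l v, G l (WV E (e l) v) ≤ H l (WV E (e l) v)) :
    AvG p ν E e G ≤ AvG p ν E e H :=
  Finset.sum_le_sum fun l _ => mul_le_mul_of_nonneg_left
    (integral_mono (hG l) (hH l) fun v => h l v) (Finset.prod_nonneg fun x _ => hp _)

theorem int_diff (hA : A.IsSymm) [∀ k, IsProbabilityMeasure (ν k)] (j : ℕ)
    {e : (ι → Λ) → ι → ℝ} (he : ∀ l x, 0 < e l x) (l : ι → Λ) :
    Integrable (fun v => ∑ k, En A (WV E (e l) v) (a k) -
      ∑ q, En A (WV E (e l) v) (Fj a j q)) (Measure.pi fun x => ν (l x)) :=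
  (integrable_finset_sum _ fun k _ => integrable_En_WV hA _ E (he l) (a k)).sub
    (integrable_finset_sum _ fun q _ => integrable_En_WV hA _ E (he l) (Fj a j q))

theorem PhiG_sub_ge (hA : A.IsSymm) [∀ k, IsProbabilityMeasure (ν k)] (hp : ∀ k, 0 ≤ p k) (j : ℕ)
    {e : (ι → Λ) → ι → ℝ} (he : ∀ l x, 0 < e l x) :
    (1 / 2) * (PhiG A p ν E a e - 8 * Fintype.card κ * 4 ^ j * EMG A p ν E e) ≤
      PhiG A p ν E a e - PhiG A p ν E (Fj a j) e := by
  rw [PhiG_sub_eq hA j he]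
  have hEn : ∀ l, Integrable (fun v => ∑ k, En A (WV E (e l) v) (a k))
      (Measure.pi fun x => ν (l x)) := fun l =>
    integrable_finset_sum _ fun k _ => integrable_En_WV hA _ E (he l) (a k)
  have hmm : ∀ l, Integrable (fun v => ∑ x, e l x * mm A (WV E (e l) v) x)
      (Measure.pi fun x => ν (l x)) := fun l =>
    integrable_finset_sum _ fun x _ => (integrable_mm hA _ E (he l) x).const_mul _
  have h1 : AvG p ν E e (fun l W => (1 / 2) * (∑ k, En A W (a k) -
      8 * Fintype.card κ * 4 ^ j * ∑ x, e l x * mm A W x)) =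
      (1 / 2) * (PhiG A p ν E a e - 8 * Fintype.card κ * 4 ^ j * EMG A p ν E e) := by
    unfold PhiG AvG EMG SG Ex
    rw [mul_sub, Finset.mul_sum, Finset.mul_sum, Finset.mul_sum, ← Finset.sum_sub_distrib]
    refine Finset.sum_congr rfl fun l _ => ?_
    rw [integral_const_mul, integral_sub (hEn l) ((hmm l).const_mul _), integral_const_mul,
      integral_finset_sum _ fun x _ => (integrable_mm hA _ E (he l) x).const_mul _]
    simp only [integral_const_mul]
    ring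
  rw [← h1]
  refine AvG_mono hp (fun l => ?_) (fun l => int_diff hA j he l) fun l v => ?_
  · exact ((hEn l).sub ((hmm l).const_mul _)).const_mul _
  · have h2 := sum_En_sub_ge hA (WV_neg (E := E) (he l) v) a j
    simp only [WV_im0, neg_neg] at h2
    exact h2

theorem PhiG_sub_le (hA : A.IsSymm) [∀ k, IsProbabilityMeasure (ν k)] (hp : ∀ k, 0 ≤ p k) (j : ℕ)
    {e : (ι → Λ) → ι → ℝ} (he : ∀ l x, 0 < e l x) :
    PhiG A p ν E a e - PhiG A p ν E (Fj a j) e ≤ M4G A p ν E a e / 4 ^ j := by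
  rw [PhiG_sub_eq hA j he]
  have h1 : AvG p ν E e (fun l W => (∑ x, ∑ y, (-(W x).im) * (-(W y).im) * KK A W x y *
      d2 a x y ^ 2) / 4 ^ j) = M4G A p ν E a e / 4 ^ j := by
    unfold M4G AvG Ex
    rw [Finset.sum_div]
    refine Finset.sum_congr rfl fun l _ => ?_
    rw [integral_div, mul_div_assoc]
  rw [← h1]
  exact AvG_mono hp (fun l => int_diff hA j he l)
    (fun l => (integrable_M4 hA _ E (he l)).div_const _)
    fun l v => sum_En_sub_le (WV_neg (E := E) (he l) v) a j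

theorem EMG_nonneg (hA : A.IsSymm) (hp : ∀ k, 0 ≤ p k) {e : (ι → Λ) → ι → ℝ}
    (he : ∀ l x, 0 < e l x) : 0 ≤ EMG A p ν E e :=
  Finset.sum_nonneg fun l _ => mul_nonneg (Finset.prod_nonneg fun x _ => hp _)
    (Finset.sum_nonneg fun x _ => mul_nonneg (he l x).le
      (Ex_nonneg _ _ _ fun v => (mm_pos hA (WV_neg (he l) v) x).le))

theorem M4G_nonneg (hp : ∀ k, 0 ≤ p k) {e : (ι → Λ) → ι → ℝ}
    (he : ∀ l x, 0 < e l x) : 0 ≤ M4G A p ν E a e :=
  Finset.sum_nonneg fun l _ => mul_nonneg (Finset.prod_nonneg fun x _ => hp _)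
    (Ex_nonneg _ _ _ fun v => Finset.sum_nonneg fun x _ => Finset.sum_nonneg fun y _ => by
      have h1 := WV_neg (E := E) (he l) v x
      have h2 := WV_neg (E := E) (he l) v y
      exact mul_nonneg (mul_nonneg (mul_nonneg (by linarith) (by linarith)) (KK_nonneg _ _))
        (sq_nonneg _))

/-- lower bound at the end of the stage -/
theorem LG_ge (hA : A.IsSymm) [∀ k, IsProbabilityMeasure (ν k)] (hp : ∀ k, 0 ≤ p k) (n : ℕ)
    {e : (ι → Λ) → ι → ℝ} (he : ∀ l x, 0 < e l x) :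
    n / 2 * PhiG A p ν E a e - 4 / 3 * Fintype.card κ * 4 ^ n * EMG A p ν E e ≤
      LG A p ν E a (Finset.range n) e := by
  have hE := EMG_nonneg (ν := ν) (E := E) hA hp he
  have hsum : ∀ n : ℕ, ∑ j ∈ Finset.range n, (4 : ℝ) ^ j = (4 ^ n - 1) / 3 := by
    intro n
    induction n with
    | zero => simp
    | succ n ih => rw [Finset.sum_range_succ, ih, pow_succ]; ring
  have h1 : ∑ j ∈ Finset.range n, (1 / 2) * (PhiG A p ν E a e -
      8 * Fintype.card κ * 4 ^ j * EMG A p ν E e) ≤ LG A p ν E a (Finset.range n) e :=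
    Finset.sum_le_sum fun j _ => PhiG_sub_ge hA hp j he
  refine le_trans ?_ h1
  have h2 : ∑ j ∈ Finset.range n, (1 / 2) * (PhiG A p ν E a e -
      8 * Fintype.card κ * 4 ^ j * EMG A p ν E e) =
      n / 2 * PhiG A p ν E a e - 4 * Fintype.card κ * EMG A p ν E e *
        ∑ j ∈ Finset.range n, (4 : ℝ) ^ j := by
    rw [Finset.mul_sum]
    have : ∀ j ∈ Finset.range n, (1 / 2) * (PhiG A p ν E a e -
        8 * Fintype.card κ * 4 ^ j * EMG A p ν E e) =
        (1 / 2) * PhiG A p ν E a e - 4 * Fintype.card κ * EMG A p ν E e * 4 ^ j :=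
      fun j _ => by ring
    rw [Finset.sum_congr rfl this, Finset.sum_sub_distrib, Finset.sum_const,
      Finset.card_range, nsmul_eq_mul]
    ring
  rw [h2, hsum]
  have h3 : 0 ≤ (Fintype.card κ : ℝ) * EMG A p ν E e := by positivity
  nlinarith

/-- upper bound at the start of the stage -/
theorem LG_le (hA : A.IsSymm) [∀ k, IsProbabilityMeasure (ν k)] (hp : ∀ k, 0 ≤ p k) (n n₀ : ℕ)
    {e : (ι → Λ) → ι → ℝ} (he : ∀ l x, 0 < e l x) :
    LG A p ν E a (Finset.range n) e ≤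
      n₀ * PhiG A p ν E a e + 2 * (M4G A p ν E a e / 4 ^ n₀) := by
  classical
  have hM := M4G_nonneg (A := A) (ν := ν) (E := E) (a := a) hp he
  have hP : 0 ≤ PhiG A p ν E a e := PhiG_nonneg hp fun l x => (he l x).le
  have hF : ∀ j, 0 ≤ PhiG A p ν E (Fj a j) e := fun j => PhiG_nonneg hp fun l x => (he l x).le
  unfold LG
  rw [← Finset.sum_filter_add_sum_filter_not (Finset.range n) (fun j => j < n₀)]
  refine add_le_add ?_ ?_
  · calc ∑ j ∈ (Finset.range n).filter (fun j => j < n₀),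
          (PhiG A p ν E a e - PhiG A p ν E (Fj a j) e)
        ≤ ∑ j ∈ (Finset.range n).filter (fun j => j < n₀), PhiG A p ν E a e :=
          Finset.sum_le_sum fun j _ => by linarith [hF j]
      _ = (((Finset.range n).filter (fun j => j < n₀)).card : ℝ) * PhiG A p ν E a e := by
          rw [Finset.sum_const, nsmul_eq_mul]
      _ ≤ n₀ * PhiG A p ν E a e := by
          refine mul_le_mul_of_nonneg_right ?_ hP
          have h1 : ((Finset.range n).filter (fun j => j < n₀)).card ≤ (Finset.range n₀).card :=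
            Finset.card_le_card fun j hj => Finset.mem_range.2 (Finset.mem_filter.1 hj).2
          rw [Finset.card_range] at h1
          exact_mod_cast h1
  · set S := (Finset.range n).filter (fun j => ¬ j < n₀) with hS
    have hge : ∀ j ∈ S, n₀ ≤ j := fun j hj => not_lt.1 (Finset.mem_filter.1 hj).2
    have h2 : ∀ j ∈ S, ((2 : ℝ) ^ j)⁻¹ ≤ ((2 : ℝ) ^ n₀)⁻¹ := fun j hj => by
      gcongr
      · norm_num
      · exact hge j hj
    have h3 := sum_half_pow_le S (c := ((2 : ℝ) ^ n₀)⁻¹) (by positivity) h2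
    have h4 : ∀ n : ℕ, ((4 : ℝ) ^ n)⁻¹ = ((2 : ℝ) ^ n)⁻¹ * ((2 : ℝ) ^ n)⁻¹ := fun n => by
      rw [← mul_inv, ← mul_pow]; norm_num
    calc ∑ j ∈ S, (PhiG A p ν E a e - PhiG A p ν E (Fj a j) e)
        ≤ ∑ j ∈ S, M4G A p ν E a e * ((2 : ℝ) ^ n₀)⁻¹ * ((2 : ℝ) ^ j)⁻¹ := by
          refine Finset.sum_le_sum fun j hj => (PhiG_sub_le hA hp j he).trans ?_
          rw [div_eq_mul_inv, h4, mul_assoc]
          refine mul_le_mul_of_nonneg_left ?_ hM
          exact mul_le_mul_of_nonneg_right (h2 j hj) (by positivity)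
      _ = M4G A p ν E a e * ((2 : ℝ) ^ n₀)⁻¹ * ∑ j ∈ S, ((2 : ℝ) ^ j)⁻¹ := by
          rw [Finset.mul_sum]
      _ ≤ M4G A p ν E a e * ((2 : ℝ) ^ n₀)⁻¹ * (2 * ((2 : ℝ) ^ n₀)⁻¹) :=
          mul_le_mul_of_nonneg_left h3 (by positivity)
      _ = 2 * (M4G A p ν E a e / 4 ^ n₀) := by
          rw [div_eq_mul_inv, h4]; ring

/-- **growth of the logarithmic energy between two profiles** -/
theorem LG_growth (hA : A.IsSymm) [∀ k, IsProbabilityMeasure (ν k)] (hp : ∀ k, 0 ≤ p k)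
    (n n₀ : ℕ) {e₀ e₁ : (ι → Λ) → ι → ℝ} (he₀ : ∀ l x, 0 < e₀ l x) (he₁ : ∀ l x, 0 < e₁ l x) :
    n / 2 * PhiG A p ν E a e₁ - 4 / 3 * Fintype.card κ * 4 ^ n * EMG A p ν E e₁ -
      n₀ * PhiG A p ν E a e₀ - 2 * (M4G A p ν E a e₀ / 4 ^ n₀) ≤
      LG A p ν E a (Finset.range n) e₁ - LG A p ν E a (Finset.range n) e₀ := by
  have h1 := LG_ge (ν := ν) (E := E) (a := a) hA hp n he₁
  have h2 := LG_le (ν := ν) (E := E) (a := a) hA hp n n₀ he₀
  linarith

/-- **growth over a stage**, all numbers per site (`M` = number of sites), `S` = logarithmic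
length: the number `n` of scales is chosen from `S` -/
theorem LG_growth_stage (hA : A.IsSymm) [∀ k, IsProbabilityMeasure (ν k)] (hp : ∀ k, 0 ≤ p k)
    {d₀ C₁ Cm R₀ S M : ℝ} (hd : 0 < d₀) (hC₁ : 0 < C₁) (hCm : 0 < Cm) (hR : 0 ≤ R₀) (hM : 0 ≤ M)
    (hS : 4 * (Real.log (1 + 8 * Fintype.card κ * Cm / d₀) + 1 + ((R₀ + 1) * C₁ + 2) / d₀) ≤ S)
    {e₀ e₁ : (ι → Λ) → ι → ℝ} (he₀ : ∀ l x, 0 < e₀ l x) (he₁ : ∀ l x, 0 < e₁ l x)
    (hD₀ : PhiG A p ν E a e₀ ≤ C₁ * M) (hD₁ : d₀ * M ≤ PhiG A p ν E a e₁)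
    (hE : EMG A p ν E e₁ ≤ Cm * Real.exp (-S) * M)
    (h4 : M4G A p ν E a e₀ ≤ Real.exp R₀ * M) :
    ∃ n : ℕ, (n : ℝ) ≤ S ∧ d₀ / 16 * S * M ≤
      LG A p ν E a (Finset.range n) e₁ - LG A p ν E a (Finset.range n) e₀ := by
  set K : ℝ := (Fintype.card κ : ℝ) with hK
  have hK0 : 0 ≤ K := Nat.cast_nonneg _
  set B : ℝ := Real.log (1 + 8 * K * Cm / d₀) with hB
  have hB0 : 0 ≤ B := Real.log_nonneg (by
    have : 0 ≤ 8 * K * Cm / d₀ := by positivity
    linarith)
  have hq0 : 0 ≤ ((R₀ + 1) * C₁ + 2) / d₀ := by positivity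
  have hSB : B ≤ S := by linarith
  have hl4 : 0 < Real.log 4 := Real.log_pos (by norm_num)
  have hl4a : Real.log 4 ≤ 7 / 5 := by
    have h1 : Real.log 4 = 2 * Real.log 2 := by
      rw [show (4 : ℝ) = 2 ^ 2 by norm_num, Real.log_pow]; push_cast; ring
    have := Real.log_two_lt_d9
    linarith
  have hl4b : 1 ≤ Real.log 4 := by
    have h1 : Real.log 4 = 2 * Real.log 2 := by
      rw [show (4 : ℝ) = 2 ^ 2 by norm_num, Real.log_pow]; push_cast; ring
    have := Real.log_two_gt_d9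
    linarith
  set n : ℕ := ⌊(S - B) / Real.log 4⌋₊ with hn
  set n₀ : ℕ := ⌈R₀ / Real.log 4⌉₊ with hn₀
  have hSB0 : 0 ≤ (S - B) / Real.log 4 := div_nonneg (by linarith) hl4.le
  have hn1 : (n : ℝ) ≤ (S - B) / Real.log 4 := Nat.floor_le hSB0
  have hn2 : (S - B) / Real.log 4 - 1 ≤ n := by
    have := Nat.lt_floor_add_one ((S - B) / Real.log 4)
    linarith
  have hn3 : (S - B) * (5 / 7) ≤ (S - B) / Real.log 4 := by
    rw [le_div_iff₀ hl4]
    nlinarith
  have hn01 : (n₀ : ℝ) ≤ R₀ + 1 := by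
    have h1 := Nat.ceil_lt_add_one (show 0 ≤ R₀ / Real.log 4 by positivity)
    have h2 : R₀ / Real.log 4 ≤ R₀ := div_le_self hR hl4b
    linarith
  have hn02 : Real.exp R₀ ≤ 4 ^ n₀ := by
    have h1 : R₀ / Real.log 4 ≤ n₀ := Nat.le_ceil _
    have h2 : R₀ ≤ n₀ * Real.log 4 := by rwa [div_le_iff₀ hl4] at h1
    calc Real.exp R₀ ≤ Real.exp (n₀ * Real.log 4) := Real.exp_le_exp.2 h2
      _ = 4 ^ n₀ := by rw [← Real.log_pow, Real.exp_log (by positivity)]
  have h4n : (4 : ℝ) ^ n ≤ Real.exp (S - B) := by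
    have h2 : n * Real.log 4 ≤ S - B := by rwa [le_div_iff₀ hl4] at hn1
    calc (4 : ℝ) ^ n = Real.exp (n * Real.log 4) := by
          rw [← Real.log_pow, Real.exp_log (by positivity)]
      _ ≤ _ := Real.exp_le_exp.2 h2
  have hE0 := EMG_nonneg (A := A) (ν := ν) (E := E) hA hp he₁
  refine ⟨n, ?_, ?_⟩
  · refine hn1.trans ((div_le_self (by linarith) hl4b).trans (by linarith))
  · refine le_trans ?_ (LG_growth (ν := ν) (E := E) (a := a) hA hp n n₀ he₀ he₁)
    have t1 : (n : ℝ) / 2 * (d₀ * M) ≤ n / 2 * PhiG A p ν E a e₁ :=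
      mul_le_mul_of_nonneg_left hD₁ (by positivity)
    have t2 : 4 / 3 * K * 4 ^ n * EMG A p ν E e₁ ≤ d₀ / 6 * M := by
      have e1 : 4 / 3 * K * 4 ^ n * EMG A p ν E e₁ ≤
          4 / 3 * K * Real.exp (S - B) * (Cm * Real.exp (-S) * M) := by gcongr
      have e2 : Real.exp (S - B) * Real.exp (-S) = Real.exp (-B) := by
        rw [← Real.exp_add]; congr 1; ring
      have e3 : Real.exp (-B) = (1 + 8 * K * Cm / d₀)⁻¹ := by
        rw [Real.exp_neg, hB, Real.exp_log]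
        positivity
      have e4 : 4 / 3 * K * Real.exp (S - B) * (Cm * Real.exp (-S) * M) =
          4 / 3 * K * Cm * M * (1 + 8 * K * Cm / d₀)⁻¹ := by
        rw [← e3, ← e2]; ring
      rw [e4] at e1
      refine e1.trans ?_
      rw [← div_eq_mul_inv, div_le_iff₀ (by positivity)]
      have e5 : d₀ / 6 * M * (1 + 8 * K * Cm / d₀) = d₀ / 6 * M + 4 / 3 * K * Cm * M := by
        field_simp; ring
      rw [e5]
      have : 0 ≤ d₀ / 6 * M := by positivity
      linarith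
    have t3 : (n₀ : ℝ) * PhiG A p ν E a e₀ ≤ (R₀ + 1) * (C₁ * M) := by
      have hP : 0 ≤ PhiG A p ν E a e₀ := PhiG_nonneg hp fun l x => (he₀ l x).le
      exact mul_le_mul hn01 hD₀ hP (by positivity)
    have t4 : 2 * (M4G A p ν E a e₀ / 4 ^ n₀) ≤ 2 * M := by
      have : M4G A p ν E a e₀ / 4 ^ n₀ ≤ M := by
        rw [div_le_iff₀ (by positivity)]
        calc M4G A p ν E a e₀ ≤ Real.exp R₀ * M := h4
          _ ≤ 4 ^ n₀ * M := mul_le_mul_of_nonneg_right hn02 hM
          _ = M * 4 ^ n₀ := mul_comm _ _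
      linarith
    have t5 : ((S - B) * (5 / 7) - 1) / 2 * (d₀ * M) ≤ (n : ℝ) / 2 * (d₀ * M) := by
      refine mul_le_mul_of_nonneg_right ?_ (by positivity)
      linarith
    -- final arithmetic, divided by `M`
    have t6 : d₀ / 16 * S ≤ ((S - B) * (5 / 7) - 1) / 2 * d₀ - d₀ / 6 - (R₀ + 1) * C₁ - 2 := by
      have e1 : ((R₀ + 1) * C₁ + 2) = d₀ * (((R₀ + 1) * C₁ + 2) / d₀) := by field_simp
      have e2 : 4 * d₀ * (B + 1 + ((R₀ + 1) * C₁ + 2) / d₀) ≤ d₀ * S := by nlinarith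
      nlinarith
    have t7 : d₀ / 16 * S * M ≤
        (((S - B) * (5 / 7) - 1) / 2 * d₀ - d₀ / 6 - (R₀ + 1) * C₁ - 2) * M :=
      mul_le_mul_of_nonneg_right t6 hM
    linarith

end avg

/-! ### the torus -/

section torus

variable {N : ℕ} [NeZero N]

theorem VecLip_Fj (j : ℕ) : VecLip (Fj (phi N) j) 2 := by
  intro x y
  have h1 : ∑ q, (Fj (phi N) j q x - Fj (phi N) j q y) ^ 2 =
      ∑ k, ((tc j (phi N k) x - tc j (phi N k) y) ^ 2 +
        (ts j (phi N k) x - ts j (phi N k) y) ^ 2) :=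
    sum_Fj (phi N) j (fun g => (g x - g y) ^ 2)
  rw [h1]
  exact (Finset.sum_le_sum fun k _ => tc_ts_sq_le j (phi N k) x y).trans (VecLip_phi x y)

theorem d2_phi (x y : Tor N) : d2 (phi N) x y = dsq x y := rfl

end torus

end P365H219
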