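import Vale.Agent.P365.H219.LFlow
import Vale.Agent.P365.T2.XDefs629

/-!
# P365-T2: growth of `LX` (629's explicit number of scales `nL S = ⌊S / 4⌋`)
-/

set_option linter.all false

namespace P365H219

open P365L P365O P365T1 P365L.TL P365T2.H213 Matrix Complex MeasureTheory Filter Topology Set
open Vale.Agent.P365.J376 P365T1.Conc P365T2.X629 P365T2.H320U
open scoped ComplexConjugate ENNReal

section stw

variable {N : ℕ} [NeZero N] {W : StW N} {lam E C1 η : ℝ}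

/-- how small `η` must be for the growth of `LX` -/
noncomputable def etaX (d0 C1 : ℝ) : ℝ :=
  min (min 1 (d0 / (128 * C1))) (1 / (32 * (1 / 2 + (10 * C1 + 2) / d0)))

theorem etaX_pos {d0 C1 : ℝ} (hd : 0 < d0) (hC1 : 0 < C1) : 0 < etaX d0 C1 := by
  unfold etaX
  exact lt_min (lt_min one_pos (by positivity)) (by positivity)

theorem nL_le {S : ℝ} (hS : 0 ≤ S) : (nL S : ℝ) ≤ S := by
  have h1 : (nL S : ℝ) ≤ S / 4 := Nat.floor_le (by positivity)
  linarith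

/-- **growth of `LX`** -/
theorem LX_growth (h : W.Ok lam E C1 η) {d0 : ℝ} (hd : 0 < d0) (hη : 0 < η) (hC1 : 0 < C1)
    (hη1 : η ≤ etaX d0 C1) (hD : d0 * (N : ℝ) ^ 2 ≤ W.Phi E (phi N) W.S) :
    d0 / 16 * W.S ≤ LX W E W.S - LX W E 0 := by
  haveI := h.prob
  have e1 : η ≤ 1 := hη1.trans ((min_le_left _ _).trans (min_le_left _ _))
  have e2 : η ≤ d0 / (128 * C1) := hη1.trans ((min_le_left _ _).trans (min_le_right _ _))
  have hS1 := stw_S_ge_one h hη e1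
  have hS0 : 0 ≤ W.S := by linarith
  set B : ℝ := 1 / 2 + (10 * C1 + 2) / d0 with hB
  have hB0 : 0 < B := by positivity
  have e3 : η ≤ 1 / (32 * B) := hη1.trans (min_le_right _ _)
  have e4 : 32 * B ≤ W.S := by
    refine le_trans ?_ h.S_ge
    rw [le_div_iff₀ hη]
    rw [le_div_iff₀ (by positivity)] at e3
    linarith
  have e4' : d0 / 2 + 10 * C1 + 2 ≤ d0 / 32 * W.S := by
    have : d0 * B = d0 / 2 + 10 * C1 + 2 := by
      rw [hB]
      field_simp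
      ring
    rw [← this]
    nlinarith
  have e5 : η * W.S * (4 * C1) ≤ d0 / 32 * W.S := by
    rw [le_div_iff₀ (by positivity)] at e2
    nlinarith
  have h0 : (0 : ℝ) ∈ Icc 0 W.S := left_mem_Icc.2 hS0
  have h1 : W.S ∈ Icc 0 W.S := right_mem_Icc.2 hS0
  set n : ℕ := nL W.S with hn
  set n₀ : ℕ := ⌈η * W.S / Real.log 4⌉₊ with hn₀
  have hl4a : Real.log 4 ≤ 7 / 5 := by
    have h1 : Real.log 4 = 2 * Real.log 2 := by
      rw [show (4 : ℝ) = 2 ^ 2 by norm_num, Real.log_pow]; push_cast; ring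
    have := Real.log_two_lt_d9
    linarith
  have hl4b : 1 ≤ Real.log 4 := by
    have h1 : Real.log 4 = 2 * Real.log 2 := by
      rw [show (4 : ℝ) = 2 ^ 2 by norm_num, Real.log_pow]; push_cast; ring
    have := Real.log_two_gt_d9
    linarith
  have hl4 : 0 < Real.log 4 := by linarith
  have hn1 : (n : ℝ) ≤ W.S / 4 := Nat.floor_le (by positivity)
  have hn2 : W.S / 4 - 1 ≤ n := by
    have := Nat.lt_floor_add_one (W.S / 4)
    show W.S / 4 - 1 ≤ ((⌊W.S / 4⌋₊ : ℕ) : ℝ)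
    linarith
  have hn01 : (n₀ : ℝ) ≤ η * W.S + 1 := by
    have h1 := Nat.ceil_lt_add_one (show 0 ≤ η * W.S / Real.log 4 by positivity)
    have h2 : η * W.S / Real.log 4 ≤ η * W.S := div_le_self (by positivity) hl4b
    linarith
  have hn02 : Real.exp (η * W.S) ≤ 4 ^ n₀ := by
    have h1 : η * W.S / Real.log 4 ≤ n₀ := Nat.le_ceil _
    have h2 : η * W.S ≤ n₀ * Real.log 4 := by rwa [div_le_iff₀ hl4] at h1
    calc Real.exp (η * W.S) ≤ Real.exp (n₀ * Real.log 4) := Real.exp_le_exp.2 h2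
      _ = 4 ^ n₀ := by rw [← Real.log_pow, Real.exp_log (by positivity)]
  have h4n : (4 : ℝ) ^ n ≤ Real.exp W.S := by
    have h2 : n * Real.log 4 ≤ W.S := by
      have : (n : ℝ) * Real.log 4 ≤ W.S / 4 * (7 / 5) :=
        mul_le_mul hn1 hl4a hl4.le (by positivity)
      linarith
    calc (4 : ℝ) ^ n = Real.exp (n * Real.log 4) := by
          rw [← Real.log_pow, Real.exp_log (by positivity)]
      _ ≤ _ := Real.exp_le_exp.2 h2
  have hgr := LG_growth (A := AT N) (p := W.p) (ν := W.ν) (E := E) (a := phi N) (AT_symm N)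
    h.p_nonneg n n₀ (stw_e_pos h 0) (stw_e_pos h W.S)
  have hM : 0 < (N : ℝ) ^ 2 := N_sq_pos
  -- the four terms
  have t1 : (n : ℝ) / 2 * (d0 * (N : ℝ) ^ 2) ≤
      n / 2 * PhiG (AT N) W.p W.ν E (phi N) (eT W.u W.w W.S) :=
    mul_le_mul_of_nonneg_left hD (by positivity)
  have t2 : 4 / 3 * (Fintype.card (Fin 4) : ℝ) * 4 ^ n *
      EMG (AT N) W.p W.ν E (eT W.u W.w W.S) ≤ 16 / 3 * C1 * (N : ℝ) ^ 2 := by
    have hE0 := EMG_nonneg (A := AT N) (ν := W.ν) (E := E) (AT_symm N) h.p_nonneg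
      (stw_e_pos h W.S)
    have hE : EMG (AT N) W.p W.ν E (eT W.u W.w W.S) ≤
        C1 * Real.exp (-W.S) * (N : ℝ) ^ 2 := by
      rw [EMG_eq_AvG (AT_symm N) (stw_e_pos h W.S)]
      exact h.weg W.S h1
    rw [Fintype.card_fin]
    calc 4 / 3 * ((4 : ℕ) : ℝ) * 4 ^ n * EMG (AT N) W.p W.ν E (eT W.u W.w W.S)
        ≤ 4 / 3 * ((4 : ℕ) : ℝ) * Real.exp W.S * (C1 * Real.exp (-W.S) * (N : ℝ) ^ 2) := by
          gcongr
      _ = 16 / 3 * C1 * (N : ℝ) ^ 2 * (Real.exp W.S * Real.exp (-W.S)) := by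
          push_cast
          ring
      _ = _ := by rw [← Real.exp_add, add_neg_cancel, Real.exp_zero, mul_one]
  have t3 : (n₀ : ℝ) * PhiG (AT N) W.p W.ν E (phi N) (eT W.u W.w 0) ≤
      (η * W.S + 1) * (4 * C1 * (N : ℝ) ^ 2) := by
    have hP : 0 ≤ PhiG (AT N) W.p W.ν E (phi N) (eT W.u W.w 0) :=
      PhiG_nonneg h.p_nonneg fun l x => (stw_e_pos h 0 l x).le
    have hD0 := DW_phi_le h h0
    unfold DW at hD0
    rw [div_le_iff₀ N_sq_pos] at hD0
    exact mul_le_mul hn01 hD0 hP (by positivity)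
  have t4 : 2 * (M4G (AT N) W.p W.ν E (phi N) (eT W.u W.w 0) / 4 ^ n₀) ≤ 2 * (N : ℝ) ^ 2 := by
    have : M4G (AT N) W.p W.ν E (phi N) (eT W.u W.w 0) / 4 ^ n₀ ≤ (N : ℝ) ^ 2 := by
      rw [div_le_iff₀ (by positivity)]
      calc M4G (AT N) W.p W.ν E (phi N) (eT W.u W.w 0)
          ≤ Real.exp (η * W.S) * (N : ℝ) ^ 2 := h.m4_start
        _ ≤ 4 ^ n₀ * (N : ℝ) ^ 2 := mul_le_mul_of_nonneg_right hn02 hM.le
        _ = _ := mul_comm _ _
    linarith
  have t5 : (W.S / 4 - 1) / 2 * (d0 * (N : ℝ) ^ 2) ≤ (n : ℝ) / 2 * (d0 * (N : ℝ) ^ 2) := by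
    refine mul_le_mul_of_nonneg_right ?_ (by positivity)
    linarith
  have t6 : d0 / 16 * W.S ≤
      (W.S / 4 - 1) / 2 * d0 - 16 / 3 * C1 - (η * W.S + 1) * (4 * C1) - 2 := by
    nlinarith
  have t7 : d0 / 16 * W.S * (N : ℝ) ^ 2 ≤
      ((W.S / 4 - 1) / 2 * d0 - 16 / 3 * C1 - (η * W.S + 1) * (4 * C1) - 2) * (N : ℝ) ^ 2 :=
    mul_le_mul_of_nonneg_right t6 hM.le
  unfold LX
  rw [← sub_div, le_div_iff₀ N_sq_pos]
  refine le_trans ?_ hgr
  linarith

end stw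

end P365H219
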