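import Vale.Agent.P365.T2.H213.Spec
import Vale.Agent.P365.H219.EM

/-!
# P365-T2, T-L over 213's `StW`: the fields of `D` (any Lipschitz family) and of `L` in 213's
`Flow`, the growth of `L`, and the mobility fact of 179's `OneFacts`.

Everything is per site (divided by `N²`).

* `dflow`, `DW_nonneg`, `DW_le`, `LsW_nonneg`, `cont_DW`;
* `lflow`, `GW_le`, `cont_LW`, `L_growth`;
* `mob_fact`, `mob_ge`, and `AvG` forms `MobW_eq`, `GW_eq`.
-/

set_option linter.all false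

namespace P365H219

open P365L P365O P365T1 P365L.TL P365T2.H213 Matrix Complex MeasureTheory Filter Topology Set
open Vale.Agent.P365.J376 P365T1.Conc
open scoped ComplexConjugate ENNReal

/-! ### exchange of sums and integrals -/

section exch

variable {ι : Type*} [Fintype ι] [DecidableEq ι] {A : Matrix ι ι ℝ}
  {Λ : Type*} [Fintype Λ] {p : Λ → ℝ} {ν : Λ → Measure ℝ} {E : ℝ}
  {κ : Type*} [Fintype κ] {a : κ → ι → ℝ}

/-- a site average is the average of the sum over the sites -/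
theorem SG_eq_AvG {e w : (ι → Λ) → ι → ℝ} {G : (ι → ℂ) → ι → ℝ}
    (hG : ∀ l x, Integrable (fun v => G (WV E (e l) v) x) (Measure.pi fun x => ν (l x))) :
    SG p ν E e w G = AvG p ν E e (fun l W => ∑ x, w l x * G W x) := by
  unfold SG AvG Ex
  refine Finset.sum_congr rfl fun l _ => ?_
  congr 1
  rw [integral_finset_sum _ fun x _ => (hG l x).const_mul _]
  exact Finset.sum_congr rfl fun x _ => (integral_const_mul _ _).symm

theorem EMG_eq_AvG (hA : A.IsSymm) [∀ k, IsProbabilityMeasure (ν k)]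
    {e : (ι → Λ) → ι → ℝ} (he : ∀ l x, 0 < e l x) :
    EMG A p ν E e = AvG p ν E e (fun l W => ∑ x, e l x * mm A W x) :=
  SG_eq_AvG fun l x => integrable_mm hA _ E (he l) x

theorem MobG_eq_AvG (hA : A.IsSymm) [∀ k, IsProbabilityMeasure (ν k)]
    {e w : (ι → Λ) → ι → ℝ} (he : ∀ l x, 0 < e l x) (θ : ℝ) :
    MobG A p ν E a e w θ = AvG p ν E e (fun l W => ∑ x, w l x * mobc A W a θ x) :=
  SG_eq_AvG fun l x => integrable_mobc hA _ E (he l) a θ x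

theorem ContG_eq_AvG (hA : A.IsSymm) [∀ k, IsProbabilityMeasure (ν k)]
    {e w : (ι → Λ) → ι → ℝ} (he : ∀ l x, 0 < e l x) :
    ContG A p ν E a e w = AvG p ν E e (fun l W => ∑ x, w l x * ∑ k, Mf A W (a k) x) :=
  SG_eq_AvG fun l x => integrable_sum_Mf hA _ E (he l) a x

end exch

/-- `φ(θ) → 0` -/
theorem phiF_le_sqrt {θ : ℝ} (hθ : 0 < θ) (hθ1 : θ ≤ 1) : phiF θ ≤ 3 * Real.sqrt θ := by
  set s := Real.sqrt θ with hs
  have hs0 : 0 < s := Real.sqrt_pos.2 hθ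
  have hs2 : s ^ 2 = θ := Real.sq_sqrt hθ.le
  have hs1 : s ≤ 1 := by
    rw [hs]
    exact Real.sqrt_le_one.2 hθ1
  have h1 : Real.log (1 / θ) = 2 * Real.log (1 / s) := by
    rw [← hs2, one_div, ← inv_pow, Real.log_pow, one_div]
    push_cast
    ring
  have h2 : Real.log (1 / s) ≤ 1 / s - 1 := Real.log_le_sub_one_of_pos (by positivity)
  unfold phiF
  rw [h1]
  have h3 : θ * (1 + 2 * Real.log (1 / s)) ≤ θ * (1 + 2 * (1 / s - 1)) := by gcongr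
  refine h3.trans ?_
  have h4 : θ * (1 / s) = s := by
    rw [← hs2]
    field_simp
  nlinarith

theorem exists_theta {ρ : ℝ} (hρ : 0 < ρ) : ∃ θ : ℝ, 0 < θ ∧ θ ≤ 1 ∧ 296 * phiF θ ≤ ρ := by
  set r : ℝ := min 1 (ρ / 888) with hr
  have hr0 : 0 < r := lt_min one_pos (by positivity)
  have hr1 : r ≤ 1 := min_le_left _ _
  refine ⟨r ^ 2, by positivity, by nlinarith, ?_⟩
  have h1 := phiF_le_sqrt (θ := r ^ 2) (by positivity) (by nlinarith)
  rw [Real.sqrt_sq hr0.le] at h1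
  have h2 : r ≤ ρ / 888 := min_le_right _ _
  linarith

/-! ### over `StW` -/

section stw

variable {N : ℕ} [NeZero N] {W : StW N} {lam E C1 η : ℝ}

/-- constant of the law error -/
noncomputable def CauC (lam E : ℝ) : ℝ :=
  2 * (1 + E ^ 2) * (5500 * ((1 + 2 * lam ^ 2) / (lam * tau0 / 2) ^ 2 + 2))

theorem CauC_nonneg (lam E : ℝ) : 0 ≤ CauC lam E := by
  unfold CauC
  positivity

theorem cau_mov (h : W.Ok lam E C1 η) (hlam : 0 < lam) (l : Tor N → W.Λ) (x : Tor N)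
    (hx : W.w l x ≠ 0) : Cau2 E (CauC lam E) (W.ν (l x)) := by
  rw [h.mov l x hx]
  exact cau2_nuS (l0_pos hlam) (l0_lt hlam) E

theorem cau_wT (h : W.Ok lam E C1 η) (hlam : 0 < lam) (τ : ℝ) (l : Tor N → W.Λ) (x : Tor N)
    (hx : wT W.w τ l x ≠ 0) : Cau2 E (CauC lam E) (W.ν (l x)) :=
  cau_mov h hlam l x fun h0 => hx (by
    unfold wT
    rw [h0, mul_zero])

theorem stw_u_nonneg (h : W.Ok lam E C1 η) (l : Tor N → W.Λ) (x : Tor N) : 0 ≤ W.u l x := by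
  obtain ⟨b, hb, hbu⟩ := h.u_pos
  exact hb.le.trans (hbu l x)

theorem stw_w_le (h : W.Ok lam E C1 η) (l : Tor N → W.Λ) (x : Tor N) : W.w l x ≤ 1 := by
  have h1 := h.e_le l x
  have h2 := stw_u_nonneg h l x
  linarith

theorem stw_e_pos (h : W.Ok lam E C1 η) (τ : ℝ) (l : Tor N → W.Λ) (x : Tor N) :
    0 < eT W.u W.w τ l x := by
  obtain ⟨b, hb, hbu⟩ := h.u_pos
  exact eT_pos hb hbu h.w_nonneg τ l x

theorem stw_w_nonneg (h : W.Ok lam E C1 η) (τ : ℝ) (l : Tor N → W.Λ) (x : Tor N) :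
    0 ≤ wT W.w τ l x := wT_nonneg h.w_nonneg τ l x

theorem stw_w_le_e (h : W.Ok lam E C1 η) (τ : ℝ) (l : Tor N → W.Λ) (x : Tor N) :
    wT W.w τ l x ≤ eT W.u W.w τ l x := by
  have := stw_u_nonneg h l x
  unfold wT eT
  linarith

theorem stw_S_ge_one (h : W.Ok lam E C1 η) (hη : 0 < η) (hη1 : η ≤ 1) : 1 ≤ W.S :=
  le_trans (by rwa [one_le_div hη]) h.S_ge

/-- the off-resonant energy of a Lipschitz family is tiny -/
theorem Yg_le (h : W.Ok lam E C1 η) (hη : 0 < η) (hη1 : η ≤ 1)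
    {τ : ℝ} (hτ : τ ∈ Icc 0 W.S) {κ : Type} [Fintype κ] {F : κ → Tor N → ℝ} {Λf : ℝ}
    (hΛ : 0 ≤ Λf) (hF : VecLip F Λf) :
    W.Yg E F τ ≤ (C1 + 1) * Λf ^ 2 * η / W.S ^ 8 * (N : ℝ) ^ 2 := by
  have hS := stw_S_ge_one h hη hη1
  have h1 := h.hub τ hτ κ F Λf hΛ hF
  have h2 := h.en_le τ hτ κ F Λf hΛ hF
  have h3 : 0 ≤ η / W.S ^ 8 := by positivity
  refine h1.trans ?_
  calc η / W.S ^ 8 * (W.Phi E F τ + Λf ^ 2 * (N : ℝ) ^ 2)
      ≤ η / W.S ^ 8 * (C1 * (Λf ^ 2 * (N : ℝ) ^ 2) + Λf ^ 2 * (N : ℝ) ^ 2) :=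
        mul_le_mul_of_nonneg_left (by linarith) h3
    _ = _ := by ring

/-- energy per site -/
noncomputable def DW {κ : Type} [Fintype κ] (W : StW N) (E : ℝ) (F : κ → Tor N → ℝ) (τ : ℝ) :
    ℝ := W.Phi E F τ / (N : ℝ) ^ 2

/-- loss per site -/
noncomputable def LsW {κ : Type} [Fintype κ] (W : StW N) (E : ℝ) (F : κ → Tor N → ℝ) (τ : ℝ) :
    ℝ := W.LossF E F τ / (N : ℝ) ^ 2

/-- logarithmic energy per site -/
noncomputable def LW (W : StW N) (E : ℝ) (n : ℕ) (τ : ℝ) : ℝ :=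
  LG (AT N) W.p W.ν E (phi N) (Finset.range n) (eT W.u W.w τ) / (N : ℝ) ^ 2

/-- its growth rate -/
noncomputable def GW (W : StW N) (E : ℝ) (n : ℕ) (τ : ℝ) : ℝ :=
  GrG (AT N) W.p W.ν E (phi N) (Finset.range n) (eT W.u W.w τ) (wT W.w τ) / (N : ℝ) ^ 2

/-- mobile content per site -/
noncomputable def MobW (W : StW N) (E θ : ℝ) (τ : ℝ) : ℝ :=
  MobG (AT N) W.p W.ν E (phi N) (eT W.u W.w τ) (wT W.w τ) θ / (N : ℝ) ^ 2

theorem N_sq_pos : 0 < (N : ℝ) ^ 2 := by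
  have : (N : ℝ) ≠ 0 := Nat.cast_ne_zero.2 (NeZero.ne N)
  positivity

theorem card_Tor : (Fintype.card (Tor N) : ℝ) = (N : ℝ) ^ 2 := by
  have h2 : Fintype.card (Tor N) = N * N := by
    show Fintype.card (ZMod N × ZMod N) = N * N
    rw [Fintype.card_prod, ZMod.card]
  rw [h2]
  push_cast
  ring

/-! ### the energy -/

theorem DW_nonneg (h : W.Ok lam E C1 η) {κ : Type} [Fintype κ] (F : κ → Tor N → ℝ) (τ : ℝ) :
    0 ≤ DW W E F τ :=
  div_nonneg (PhiG_nonneg h.p_nonneg fun l x => (stw_e_pos h τ l x).le) (sq_nonneg _)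

theorem DW_le (h : W.Ok lam E C1 η) {τ : ℝ} (hτ : τ ∈ Icc 0 W.S) {κ : Type} [Fintype κ]
    {F : κ → Tor N → ℝ} {Λf : ℝ} (hΛ : 0 ≤ Λf) (hF : VecLip F Λf) :
    DW W E F τ ≤ C1 * Λf ^ 2 := by
  unfold DW
  rw [div_le_iff₀ N_sq_pos, mul_assoc]
  exact h.en_le τ hτ κ F Λf hΛ hF

theorem DW_phi_le (h : W.Ok lam E C1 η) {τ : ℝ} (hτ : τ ∈ Icc 0 W.S) :
    DW W E (phi N) τ ≤ 4 * C1 := by
  have := DW_le h hτ (F := phi N) (Λf := 2) (by norm_num) VecLip_phi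
  linarith

theorem LsW_nonneg (h : W.Ok lam E C1 η) {κ : Type} [Fintype κ] (F : κ → Tor N → ℝ) (τ : ℝ) :
    0 ≤ LsW W E F τ := by
  haveI := h.prob
  exact div_nonneg (LossG_nonneg (AT_symm N) h.p_nonneg (stw_e_pos h τ) (stw_w_nonneg h τ))
    (sq_nonneg _)

theorem hasDerivAt_Phi (h : W.Ok lam E C1 η) {κ : Type} [Fintype κ] (F : κ → Tor N → ℝ)
    (τ : ℝ) :
    HasDerivAt (W.Phi E F) (-(W.LossF E F τ +
      ErrG (AT N) W.p W.ν E F (eT W.u W.w τ) (wT W.w τ))) τ := by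
  haveI := h.prob
  obtain ⟨b, hb, hbu⟩ := h.u_pos
  exact hasDerivAt_PhiG_log (AT_symm N) hb one_pos hbu h.w_nonneg (stw_w_le h) τ

theorem cont_DW (h : W.Ok lam E C1 η) {κ : Type} [Fintype κ] (F : κ → Tor N → ℝ) :
    Continuous (DW W E F) := by
  refine continuous_iff_continuousAt.2 fun τ => ?_
  exact ((hasDerivAt_Phi h F τ).div_const _).continuousAt

/-- **the flow of the energy** of a Lipschitz family -/
theorem dflow (h : W.Ok lam E C1 η) (hlam : 0 < lam) (hη : 0 < η) (hη1 : η ≤ 1) (hC1 : 0 < C1)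
    {τ : ℝ} (hτ : τ ∈ Icc 0 W.S) {κ : Type} [Fintype κ] {F : κ → Tor N → ℝ} {Λf : ℝ}
    (hΛ : 0 ≤ Λf) (hF : VecLip F Λf) :
    ∃ d, HasDerivAt (DW W E F) d τ ∧
      |d + LsW W E F τ| ≤ 10 * CauC lam E * (C1 + 1) * Λf ^ 2 * η := by
  haveI := h.prob
  refine ⟨_, (hasDerivAt_Phi h F τ).div_const _, ?_⟩
  have h1 := abs_ErrG_le (E := E) (f := F) (ν := W.ν) (AT_symm N) h.p_nonneg (stw_e_pos h τ)
    (stw_w_nonneg h τ) (cau_wT h hlam τ)
  have h2 := Yg_le h hη hη1 hτ hΛ hF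
  have hS := stw_S_ge_one h hη hη1
  have h3 : (C1 + 1) * Λf ^ 2 * η / W.S ^ 8 ≤ (C1 + 1) * Λf ^ 2 * η :=
    div_le_self (by positivity) (one_le_pow₀ hS)
  have h4 : W.Yg E F τ ≤ (C1 + 1) * Λf ^ 2 * η * (N : ℝ) ^ 2 :=
    h2.trans (mul_le_mul_of_nonneg_right h3 (sq_nonneg _))
  have h5 : -(W.LossF E F τ + ErrG (AT N) W.p W.ν E F (eT W.u W.w τ) (wT W.w τ)) /
      (N : ℝ) ^ 2 + LsW W E F τ =
      -(ErrG (AT N) W.p W.ν E F (eT W.u W.w τ) (wT W.w τ)) / (N : ℝ) ^ 2 := by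
    unfold LsW
    ring
  rw [h5, abs_div, abs_neg, abs_of_pos (N_sq_pos (N := N)), div_le_iff₀ N_sq_pos]
  refine h1.trans ?_
  have h6 : 0 ≤ 10 * CauC lam E := by
    have := CauC_nonneg lam E
    positivity
  calc 10 * CauC lam E * YG (AT N) W.p W.ν E F (eT W.u W.w τ) (wT W.w τ)
      ≤ 10 * CauC lam E * ((C1 + 1) * Λf ^ 2 * η * (N : ℝ) ^ 2) :=
        mul_le_mul_of_nonneg_left h4 h6
    _ = _ := by ring

/-! ### the logarithmic energy -/

theorem hasDerivAt_L (h : W.Ok lam E C1 η) (n : ℕ) (τ : ℝ) :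
    HasDerivAt (LW W E n) (GW W E n τ +
      (∑ j ∈ Finset.range n,
        (ErrG (AT N) W.p W.ν E (Fj (phi N) j) (eT W.u W.w τ) (wT W.w τ) -
          ErrG (AT N) W.p W.ν E (phi N) (eT W.u W.w τ) (wT W.w τ))) / (N : ℝ) ^ 2) τ := by
  haveI := h.prob
  obtain ⟨b, hb, hbu⟩ := h.u_pos
  have h1 := (hasDerivAt_LG (p := W.p) (ν := W.ν) (E := E) (a := phi N) (AT_symm N) hb one_pos
    hbu h.w_nonneg (stw_w_le h) (Finset.range n) τ).div_const ((N : ℝ) ^ 2)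
  rw [add_div] at h1
  exact h1

theorem cont_LW (h : W.Ok lam E C1 η) (n : ℕ) : Continuous (LW W E n) :=
  continuous_iff_continuousAt.2 fun τ => (hasDerivAt_L h n τ).continuousAt

/-- **the flow of the logarithmic energy** -/
theorem lflow (h : W.Ok lam E C1 η) (hlam : 0 < lam) (hη : 0 < η) (hη1 : η ≤ 1) (hC1 : 0 < C1)
    {n : ℕ} (hn : (n : ℝ) ≤ W.S) {τ : ℝ} (hτ : τ ∈ Icc 0 W.S) :
    ∃ d, HasDerivAt (LW W E n) d τ ∧
      |d - GW W E n τ| ≤ 80 * CauC lam E * (C1 + 1) * η := by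
  haveI := h.prob
  refine ⟨_, hasDerivAt_L h n τ, ?_⟩
  rw [add_sub_cancel_left, abs_div, abs_of_pos (N_sq_pos (N := N)), div_le_iff₀ N_sq_pos]
  have h1 := abs_err_le (E := E) (a := phi N) (ν := W.ν) (AT_symm N) h.p_nonneg (stw_e_pos h τ)
    (stw_w_nonneg h τ) (cau_wT h hlam τ) (Finset.range n)
  refine h1.trans ?_
  have hS := stw_S_ge_one h hη hη1
  have hc := CauC_nonneg lam E
  have hj : ∀ j ∈ Finset.range n,
      YG (AT N) W.p W.ν E (Fj (phi N) j) (eT W.u W.w τ) (wT W.w τ) +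
        YG (AT N) W.p W.ν E (phi N) (eT W.u W.w τ) (wT W.w τ) ≤
      8 * ((C1 + 1) * η / W.S ^ 8 * (N : ℝ) ^ 2) := by
    intro j _
    have e1 := Yg_le h hη hη1 hτ (F := Fj (phi N) j) (Λf := 2) (by norm_num) (VecLip_Fj j)
    have e2 := Yg_le h hη hη1 hτ (F := phi N) (Λf := 2) (by norm_num) VecLip_phi
    have e3 : (C1 + 1) * 2 ^ 2 * η / W.S ^ 8 * (N : ℝ) ^ 2 =
        4 * ((C1 + 1) * η / W.S ^ 8 * (N : ℝ) ^ 2) := by ring
    rw [e3] at e1 e2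
    unfold StW.Yg at e1 e2
    linarith
  have h2 := Finset.sum_le_sum hj
  rw [Finset.sum_const, Finset.card_range, nsmul_eq_mul] at h2
  have h3 : (n : ℝ) * (8 * ((C1 + 1) * η / W.S ^ 8 * (N : ℝ) ^ 2)) ≤
      8 * ((C1 + 1) * η) * (N : ℝ) ^ 2 := by
    have e1 : (n : ℝ) / W.S ^ 8 ≤ 1 := by
      rw [div_le_one (by positivity)]
      calc (n : ℝ) ≤ W.S := hn
        _ = W.S ^ 1 := (pow_one _).symm
        _ ≤ W.S ^ 8 := pow_le_pow_right₀ hS (by norm_num)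
    calc (n : ℝ) * (8 * ((C1 + 1) * η / W.S ^ 8 * (N : ℝ) ^ 2))
        = 8 * ((C1 + 1) * η) * (N : ℝ) ^ 2 * ((n : ℝ) / W.S ^ 8) := by ring
      _ ≤ 8 * ((C1 + 1) * η) * (N : ℝ) ^ 2 * 1 :=
        mul_le_mul_of_nonneg_left e1 (by positivity)
      _ = _ := mul_one _
  calc 10 * CauC lam E * _ ≤ 10 * CauC lam E * (8 * ((C1 + 1) * η) * (N : ℝ) ^ 2) :=
        mul_le_mul_of_nonneg_left (h2.trans h3) (by positivity)
    _ = _ := by ring

/-- the growth rate is bounded by the energy -/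
theorem GW_le_DW (h : W.Ok lam E C1 η) (n : ℕ) (τ : ℝ) :
    GW W E n τ ≤ 592 * DW W E (phi N) τ := by
  haveI := h.prob
  have h1 := GrG_le_Phi (ν := W.ν) (E := E) (a := phi N) (AT_symm N) h.p_nonneg
    (Finset.range n) (stw_e_pos h τ) (stw_w_nonneg h τ) (stw_w_le_e h τ)
  unfold GW DW
  rw [← mul_div_assoc]
  refine (div_le_div_iff_of_pos_right N_sq_pos).2 (h1.trans (le_of_eq ?_))
  rw [Fintype.card_fin]
  unfold StW.Phi
  norm_num

theorem GW_le (h : W.Ok lam E C1 η) (n : ℕ) {τ : ℝ} (hτ : τ ∈ Icc 0 W.S) :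
    GW W E n τ ≤ 2368 * C1 := by
  have h1 := GW_le_DW h n τ
  have h2 := DW_phi_le h hτ
  linarith

/-- the mobile content is bounded by the energy -/
theorem MobW_le (h : W.Ok lam E C1 η) (θ τ : ℝ) : MobW W E θ τ ≤ DW W E (phi N) τ := by
  haveI := h.prob
  unfold MobW DW
  refine (div_le_div_iff_of_pos_right N_sq_pos).2 ?_
  exact (MobG_le (AT_symm N) h.p_nonneg (stw_e_pos h τ) (stw_w_nonneg h τ) θ).trans
    (ContG_le (AT_symm N) h.p_nonneg (stw_e_pos h τ) (stw_w_le_e h τ))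

theorem MobW_nonneg (h : W.Ok lam E C1 η) (θ τ : ℝ) : 0 ≤ MobW W E θ τ := by
  haveI := h.prob
  exact div_nonneg (MobG_nonneg (AT_symm N) h.p_nonneg (stw_e_pos h τ) (stw_w_nonneg h τ) θ)
    (sq_nonneg _)

/-- **mobility**, explicit -/
theorem GW_le_mob (h : W.Ok lam E C1 η) (n : ℕ) (τ : ℝ) {θ : ℝ} (hθ : 0 < θ) (hθ1 : θ ≤ 1) :
    GW W E n τ ≤ 296 * MobW W E θ τ + 296 * phiF θ * DW W E (phi N) τ := by
  haveI := h.prob
  have h1 := GrG_le (ν := W.ν) (E := E) (a := phi N) (AT_symm N) h.p_nonneg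
    (Finset.range n) (stw_e_pos h τ) (stw_w_nonneg h τ) hθ hθ1
  have h2 := ContG_le (ν := W.ν) (E := E) (a := phi N) (AT_symm N) h.p_nonneg (stw_e_pos h τ)
    (stw_w_le_e h τ)
  have h3 := phiF_pos hθ hθ1
  unfold GW MobW DW
  rw [← mul_div_assoc, ← mul_div_assoc, ← add_div]
  refine (div_le_div_iff_of_pos_right N_sq_pos).2 (h1.trans ?_)
  rw [Fintype.card_fin]
  unfold StW.Phi
  have h4 := mul_le_mul_of_nonneg_left h2 h3.le
  push_cast
  linarith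

/-- **the field `mob` of 179's `OneFacts`** -/
theorem mob_fact {ρ : ℝ} (hρ : 0 < ρ) : ∃ θ : ℝ, 0 < θ ∧ θ ≤ 1 ∧
    ∀ (N : ℕ) [NeZero N] (W : StW N) (lam E C1 η : ℝ), W.Ok lam E C1 η → ∀ (n : ℕ) (τ : ℝ),
      GW W E n τ ≤ 296 * MobW W E θ τ + ρ * DW W E (phi N) τ := by
  obtain ⟨θ, hθ, hθ1, h1⟩ := exists_theta hρ
  refine ⟨θ, hθ, hθ1, fun N _ W lam E C1 η h n τ => ?_⟩
  have h2 := GW_le_mob h n τ hθ hθ1
  have h3 := mul_le_mul_of_nonneg_right h1 (DW_nonneg h (phi N) τ)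
  linarith

/-- the mobile content as an average -/
theorem MobW_eq (h : W.Ok lam E C1 η) (θ τ : ℝ) :
    MobW W E θ τ = W.Av E τ (fun l V => ∑ x, wT W.w τ l x * mobc (AT N) V (phi N) θ x) /
      (N : ℝ) ^ 2 := by
  haveI := h.prob
  unfold MobW StW.Av
  rw [MobG_eq_AvG (AT_symm N) (stw_e_pos h τ)]

/-! ### growth -/

/-- how small `η` must be for the growth -/
noncomputable def etaL (d0 C1 : ℝ) : ℝ :=
  min (min 1 (d0 / (32 * C1)))
    (1 / (8 * (Real.log (1 + 32 * C1 / d0) + 1 + (4 * C1 + 2) / d0)))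

theorem etaL_pos {d0 C1 : ℝ} (hd : 0 < d0) (hC1 : 0 < C1) : 0 < etaL d0 C1 := by
  have h1 : 0 ≤ Real.log (1 + 32 * C1 / d0) := Real.log_nonneg (by
    have : 0 ≤ 32 * C1 / d0 := by positivity
    linarith)
  unfold etaL
  refine lt_min (lt_min one_pos (by positivity)) (by positivity)

/-- **growth of the logarithmic energy over the good part of the stage** -/
theorem L_growth (h : W.Ok lam E C1 η) {d0 : ℝ} (hd : 0 < d0) (hη : 0 < η) (hC1 : 0 < C1)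
    (hη1 : η ≤ etaL d0 C1) (hD : d0 ≤ DW W E (phi N) W.S) :
    ∃ n : ℕ, (n : ℝ) ≤ W.S ∧ d0 / 16 * W.S ≤ LW W E n W.S - LW W E n 0 := by
  haveI := h.prob
  have e1 : η ≤ 1 := hη1.trans ((min_le_left _ _).trans (min_le_left _ _))
  have e2 : η ≤ d0 / (32 * C1) := hη1.trans ((min_le_left _ _).trans (min_le_right _ _))
  have hS1 := stw_S_ge_one h hη e1
  have hS0 : 0 ≤ W.S := by linarith
  set B : ℝ := Real.log (1 + 32 * C1 / d0) + 1 + (4 * C1 + 2) / d0 with hB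
  have hB0 : 0 < B := by
    have h1 : 0 ≤ Real.log (1 + 32 * C1 / d0) := Real.log_nonneg (by
      have : 0 ≤ 32 * C1 / d0 := by positivity
      linarith)
    positivity
  have e3 : η ≤ 1 / (8 * B) := hη1.trans (min_le_right _ _)
  have e4 : 8 * B ≤ W.S := by
    refine le_trans ?_ h.S_ge
    rw [le_div_iff₀ hη]
    rw [le_div_iff₀ (by positivity)] at e3
    linarith
  have e5 : 4 * (η * W.S * (4 * C1) / d0) ≤ W.S / 2 := by
    rw [le_div_iff₀ (by positivity)] at e2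
    have : 4 * (η * W.S * (4 * C1) / d0) = W.S * (16 * (η * C1)) / d0 := by ring
    rw [this, div_le_iff₀ hd]
    have : W.S * (16 * (η * C1)) ≤ W.S * (d0 / 2) :=
      mul_le_mul_of_nonneg_left (by linarith) hS0
    linarith
  have hS : 4 * (Real.log (1 + 8 * Fintype.card (Fin 4) * C1 / d0) + 1 +
      ((η * W.S + 1) * (4 * C1) + 2) / d0) ≤ W.S := by
    have e6 : (8 : ℝ) * (Fintype.card (Fin 4) : ℕ) * C1 / d0 = 32 * C1 / d0 := by
      rw [Fintype.card_fin]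
      norm_num
    rw [e6]
    have e7 : 4 * (Real.log (1 + 32 * C1 / d0) + 1 + ((η * W.S + 1) * (4 * C1) + 2) / d0) =
        4 * B + 4 * (η * W.S * (4 * C1) / d0) := by
      rw [hB]
      ring
    rw [e7]
    linarith
  have h0 : (0 : ℝ) ∈ Icc 0 W.S := left_mem_Icc.2 hS0
  have h1 : W.S ∈ Icc 0 W.S := right_mem_Icc.2 hS0
  obtain ⟨n, hn, hg⟩ := LG_growth_stage (A := AT N) (p := W.p) (ν := W.ν) (E := E)
    (a := phi N) (AT_symm N) h.p_nonneg hd (C₁ := 4 * C1) (Cm := C1) (R₀ := η * W.S) (S := W.S)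
    (M := (N : ℝ) ^ 2) (by positivity) hC1 (by positivity) (sq_nonneg _) hS
    (e₀ := eT W.u W.w 0) (e₁ := eT W.u W.w W.S) (stw_e_pos h 0) (stw_e_pos h W.S)
    (by
      have := DW_phi_le h h0
      unfold DW at this
      rwa [div_le_iff₀ N_sq_pos] at this)
    (by
      unfold DW at hD
      rwa [le_div_iff₀ N_sq_pos] at hD)
    (by
      rw [EMG_eq_AvG (AT_symm N) (stw_e_pos h W.S)]
      exact h.weg W.S h1)
    h.m4_start
  refine ⟨n, hn, ?_⟩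
  unfold LW
  rw [← sub_div, le_div_iff₀ N_sq_pos]
  exact hg

end stw

end P365H219
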