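import Vale.Agent.P365.H219.LFlow

/-!
# P365-T2: `PropL` and `PropD` of 963's flow record, in `∀ ε, ∃ η₀` form
-/

set_option linter.all false

namespace P365H219

open P365L P365O P365T1 P365L.TL P365T2.H213 Matrix Complex MeasureTheory Filter Topology Set
open Vale.Agent.P365.J376 P365T1.Conc

/-- **all of T-L**: the logarithmic energy of a stage whose final energy is at least `d0` -/
theorem propL {lam E C1 d0 ε : ℝ} (hlam : 0 < lam) (hC1 : 0 < C1) (hd : 0 < d0) (hε : 0 < ε) :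
    ∃ η₀ : ℝ, 0 < η₀ ∧ η₀ ≤ 1 ∧ ∀ η : ℝ, 0 < η → η ≤ η₀ →
      ∀ (N : ℕ) [NeZero N] (W : StW N), W.Ok lam E C1 η → d0 ≤ DW W E (phi N) W.S →
        ∃ n : ℕ, (n : ℝ) ≤ W.S ∧ Continuous (LW W E n) ∧
          (∀ τ ∈ Icc 0 W.S, GW W E n τ ≤ 2368 * C1) ∧
          (∀ τ ∈ Icc 0 W.S, ∃ d, HasDerivAt (LW W E n) d τ ∧ |d - GW W E n τ| ≤ ε) ∧
          d0 / 16 * W.S ≤ LW W E n W.S - LW W E n 0 := by
  have hc := CauC_nonneg lam E
  set K : ℝ := 80 * CauC lam E * (C1 + 1) + 1 with hK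
  have hK0 : 0 < K := by positivity
  refine ⟨min (min 1 (etaL d0 C1)) (ε / K), ?_, ?_, fun η hη hη1 N _ W h hD => ?_⟩
  · exact lt_min (lt_min one_pos (etaL_pos hd hC1)) (by positivity)
  · exact (min_le_left _ _).trans (min_le_left _ _)
  · have e1 : η ≤ 1 := hη1.trans ((min_le_left _ _).trans (min_le_left _ _))
    have e2 : η ≤ etaL d0 C1 := hη1.trans ((min_le_left _ _).trans (min_le_right _ _))
    have e3 : η ≤ ε / K := hη1.trans (min_le_right _ _)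
    obtain ⟨n, hn, hg⟩ := L_growth h hd hη hC1 e2 hD
    refine ⟨n, hn, cont_LW h n, fun τ hτ => GW_le h n hτ, fun τ hτ => ?_, hg⟩
    obtain ⟨d, hd1, hd2⟩ := lflow h hlam hη e1 hC1 hn hτ
    refine ⟨d, hd1, hd2.trans ?_⟩
    rw [le_div_iff₀ hK0] at e3
    have : 80 * CauC lam E * (C1 + 1) * η ≤ η * K := by
      rw [hK]
      nlinarith
    exact this.trans e3

/-- **the energy of any Lipschitz family** -/
theorem propD {lam E C1 Λf ε : ℝ} (hlam : 0 < lam) (hC1 : 0 < C1) (hΛ : 0 ≤ Λf) (hε : 0 < ε) :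
    ∃ η₀ : ℝ, 0 < η₀ ∧ η₀ ≤ 1 ∧ ∀ η : ℝ, 0 < η → η ≤ η₀ →
      ∀ (N : ℕ) [NeZero N] (W : StW N), W.Ok lam E C1 η →
        ∀ (κ : Type) [Fintype κ] (F : κ → Tor N → ℝ), VecLip F Λf →
          Continuous (DW W E F) ∧ (∀ τ, 0 ≤ DW W E F τ) ∧ (∀ τ, 0 ≤ LsW W E F τ) ∧
          (∀ τ ∈ Icc 0 W.S, DW W E F τ ≤ C1 * Λf ^ 2) ∧
          (∀ τ ∈ Icc 0 W.S, ∃ d, HasDerivAt (DW W E F) d τ ∧ |d + LsW W E F τ| ≤ ε) := by
  have hc := CauC_nonneg lam E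
  set K : ℝ := 10 * CauC lam E * (C1 + 1) * Λf ^ 2 + 1 with hK
  have hK0 : 0 < K := by positivity
  refine ⟨min 1 (ε / K), lt_min one_pos (by positivity), min_le_left _ _,
    fun η hη hη1 N _ W h κ _ F hF => ?_⟩
  have e1 : η ≤ 1 := hη1.trans (min_le_left _ _)
  have e3 : η ≤ ε / K := hη1.trans (min_le_right _ _)
  refine ⟨cont_DW h F, DW_nonneg h F, LsW_nonneg h F, fun τ hτ => DW_le h hτ hΛ hF,
    fun τ hτ => ?_⟩
  obtain ⟨d, hd1, hd2⟩ := dflow h hlam hη e1 hC1 hτ hΛ hF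
  refine ⟨d, hd1, hd2.trans ?_⟩
  rw [le_div_iff₀ hK0] at e3
  have : 10 * CauC lam E * (C1 + 1) * Λf ^ 2 * η ≤ η * K := by
    rw [hK]
    nlinarith
  exact this.trans e3

end P365H219
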