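import Mathlib

/-!
# P365-T2: the deterministic inequality of the mobility theorem

For a finite probability vector `p` and vectors `u i` of a real inner product space,
`ψ (u) = |u|² log |u|²`, the double mean of `ψ (u i - u j) - ψ (u i) - ψ (u j)` is at most
`C V π (1 + log (1/π))`, `V = E |u|²`, `π = (E |u|)² / V`, up to a term of good sign.
-/

set_option linter.all false

namespace P365H219

open Finset Real

variable {ι H : Type*} [NormedAddCommGroup H] [InnerProductSpace ℝ H]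

/-- `ψ (u) = |u|² log |u|²` -/
noncomputable def psi (u : H) : ℝ := ‖u‖ ^ 2 * Real.log (‖u‖ ^ 2)

theorem psi_zero : psi (0 : H) = 0 := by simp [psi]

/-- `(1 + x) log (1 + x) ≤ x + x²` in homogeneous form -/
theorem gam_log_le {g a : ℝ} (hg : 0 ≤ g) (ha : 0 < a) :
    g * (Real.log g - Real.log a) ≤ (g - a) + (g - a) ^ 2 / a := by
  rcases hg.eq_or_lt with h | h
  · subst h
    have : (0 - a) + (0 - a) ^ 2 / a = 0 := by field_simp; ring
    rw [this]; simp
  · have h1 : Real.log g - Real.log a ≤ g / a - 1 := by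
      rw [← Real.log_div h.ne' ha.ne']
      exact Real.log_le_sub_one_of_pos (by positivity)
    have h2 : g * (Real.log g - Real.log a) ≤ g * (g / a - 1) :=
      mul_le_mul_of_nonneg_left h1 hg
    have h3 : g * (g / a - 1) = (g - a) + (g - a) ^ 2 / a := by field_simp; ring
    linarith

/-- pointwise inequality, ordered case -/
theorem psi_sub_le_aux {a b : H} (ha : 0 < ‖a‖) (hb : 0 < ‖b‖) (hab : ‖b‖ ≤ ‖a‖) (L : ℝ)
    (hL : 0 < L) :
    psi (a - b) - psi a - psi b ≤
      13 * (‖a‖ * ‖b‖) - 2 * inner ℝ a b * (1 + 2 * Real.log L) +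
        4 * (‖a‖ * ‖b‖) * |Real.log (‖a‖ / L)| := by
  set α := ‖a‖ ^ 2 with hα
  set β := ‖b‖ ^ 2 with hβ
  set γ := ‖a - b‖ ^ 2 with hγ
  set s : ℝ := inner ℝ a b with hs
  have hγe : γ = α + β - 2 * s := by
    rw [hγ, norm_sub_sq_real]; ring
  have hα0 : 0 < α := by positivity
  have hβ0 : 0 < β := by positivity
  have hs1 : |s| ≤ ‖a‖ * ‖b‖ := abs_real_inner_le_norm a b
  have hγ0 : 0 ≤ γ := by positivity
  have h1 := gam_log_le hγ0 hα0
  -- (γ - α)² / α ≤ 9 β
  have h2 : (γ - α) ^ 2 / α ≤ 9 * β := by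
    rw [div_le_iff₀ hα0]
    have h3 : |γ - α| ≤ 3 * (‖a‖ * ‖b‖) := by
      have h4 : γ - α = β - 2 * s := by rw [hγe]; ring
      rw [h4]
      have h5 : β ≤ ‖a‖ * ‖b‖ := by
        rw [hβ]; nlinarith
      rw [abs_le] at hs1 ⊢
      constructor <;> linarith
    have h6 : (γ - α) ^ 2 ≤ (3 * (‖a‖ * ‖b‖)) ^ 2 := by
      rw [← sq_abs]
      exact pow_le_pow_left₀ (abs_nonneg _) h3 2
    calc (γ - α) ^ 2 ≤ (3 * (‖a‖ * ‖b‖)) ^ 2 := h6
      _ = 9 * β * α := by rw [hα, hβ]; ring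
  have hβab : β ≤ ‖a‖ * ‖b‖ := by rw [hβ]; nlinarith
  -- β log (α / β) ≤ ‖a‖‖b‖ · (2/e) ≤ ‖a‖ ‖b‖ · 2
  have h7 : β * (Real.log α - Real.log β) ≤ 2 * (‖a‖ * ‖b‖) := by
    have h8 : Real.log α - Real.log β = 2 * Real.log (‖a‖ / ‖b‖) := by
      rw [hα, hβ, Real.log_pow, Real.log_pow, Real.log_div ha.ne' hb.ne']
      push_cast; ring
    have h9 : Real.log (‖a‖ / ‖b‖) ≤ ‖a‖ / ‖b‖ := (Real.log_le_self (by positivity))
    rw [h8]
    calc β * (2 * Real.log (‖a‖ / ‖b‖)) ≤ β * (2 * (‖a‖ / ‖b‖)) := by gcongr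
      _ = 2 * (‖a‖ * ‖b‖) := by rw [hβ]; field_simp
  have hlogα : Real.log α = 2 * Real.log L + 2 * Real.log (‖a‖ / L) := by
    rw [hα, Real.log_pow, Real.log_div ha.ne' hL.ne']
    push_cast; ring
  have h10 : psi (a - b) - psi a - psi b =
      γ * (Real.log γ - Real.log α) - 2 * s * Real.log α + β * (Real.log α - Real.log β) := by
    unfold psi
    rw [← hα, ← hβ, ← hγ, hγe]
    ring
  rw [h10]
  have h11 : -(2 * s * Real.log α) ≤ -(2 * s) * (2 * Real.log L) +
      4 * (‖a‖ * ‖b‖) * |Real.log (‖a‖ / L)| := by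
    rw [hlogα]
    have h12 : -(2 * s * (2 * Real.log (‖a‖ / L))) ≤
        4 * (‖a‖ * ‖b‖) * |Real.log (‖a‖ / L)| := by
      calc -(2 * s * (2 * Real.log (‖a‖ / L))) ≤ |2 * s * (2 * Real.log (‖a‖ / L))| :=
            neg_le_abs _
        _ = 4 * |s| * |Real.log (‖a‖ / L)| := by
            rw [abs_mul, abs_mul, abs_mul, abs_two]; ring
        _ ≤ 4 * (‖a‖ * ‖b‖) * |Real.log (‖a‖ / L)| := by gcongr
    linarith
  have h13 : γ - α = β - 2 * s := by rw [hγe]; ring
  rw [h13] at h1 h2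
  nlinarith

/-- pointwise inequality, symmetric form; the vectors may vanish -/
theorem psi_sub_le {a b : H} (L : ℝ) (hL : 0 < L) :
    psi (a - b) - psi a - psi b ≤
      13 * (‖a‖ * ‖b‖) - 2 * inner ℝ a b * (1 + 2 * Real.log L) +
        4 * (‖a‖ * ‖b‖) * |Real.log (max ‖a‖ ‖b‖ / L)| := by
  rcases eq_or_ne a 0 with ha | ha
  · subst ha
    simp [psi]
  rcases eq_or_ne b 0 with hb | hb
  · subst hb
    simp [psi]
  have ha' : 0 < ‖a‖ := norm_pos_iff.2 ha
  have hb' : 0 < ‖b‖ := norm_pos_iff.2 hb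
  rcases le_total ‖b‖ ‖a‖ with h | h
  · rw [max_eq_left h]
    exact psi_sub_le_aux ha' hb' h L hL
  · rw [max_eq_right h]
    have h1 := psi_sub_le_aux hb' ha' h L hL
    have h2 : psi (b - a) = psi (a - b) := by
      unfold psi; rw [norm_sub_rev]
    rw [h2, real_inner_comm, mul_comm ‖b‖ ‖a‖] at h1
    linarith

/-- tangent line of the concave function `x log (L / x)` at `x = m` -/
theorem tangent {x m L : ℝ} (hx : 0 < x) (hm : 0 < m) (hL : 0 < L) :
    x * Real.log (L / x) ≤ x * Real.log (L / m) + (m - x) := by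
  have h1 : Real.log (m / x) ≤ m / x - 1 := Real.log_le_sub_one_of_pos (by positivity)
  have h2 : Real.log (L / x) = Real.log (L / m) + Real.log (m / x) := by
    rw [← Real.log_mul (by positivity) (by positivity)]
    congr 1
    field_simp
  rw [h2]
  have h3 : x * Real.log (m / x) ≤ x * (m / x - 1) := mul_le_mul_of_nonneg_left h1 hx.le
  have h4 : x * (m / x - 1) = m - x := by field_simp
  nlinarith

/-- the logarithm of the maximum against a fixed scale `L ≥ m` -/
theorem abs_log_max_le {x y m L : ℝ} (hx : 0 ≤ x) (hy : 0 ≤ y) (hm : 0 < m) (hmL : m ≤ L) :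
    x * y * |Real.log (max x y / L)| ≤
      x * y * ((x + y) / L) + y * (x * Real.log (L / m) + m) := by
  have hL : 0 < L := hm.trans_le hmL
  have hlog : 0 ≤ Real.log (L / m) := Real.log_nonneg (by rwa [one_le_div hm])
  rcases hx.eq_or_lt with h | hx0
  · subst h
    simp only [zero_mul, zero_add]
    positivity
  have hM : 0 < max x y := hx0.trans_le (le_max_left _ _)
  rcases le_total L (max x y) with h | h
  · have h1 : 0 ≤ Real.log (max x y / L) := Real.log_nonneg (by rwa [one_le_div hL])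
    rw [abs_of_nonneg h1]
    have h2 : Real.log (max x y / L) ≤ (x + y) / L := by
      refine (Real.log_le_self (by positivity)).trans ?_
      gcongr
      exact max_le (by linarith) (by linarith)
    have h3 : x * y * Real.log (max x y / L) ≤ x * y * ((x + y) / L) := by gcongr
    have h4 : 0 ≤ y * (x * Real.log (L / m) + m) := by positivity
    linarith
  · have h1 : Real.log (max x y / L) ≤ 0 :=
      Real.log_nonpos (by positivity) (by rwa [div_le_one hL])
    rw [abs_of_nonpos h1]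
    have h2 : -Real.log (max x y / L) ≤ Real.log (L / x) := by
      rw [← Real.log_inv, inv_div]
      exact Real.log_le_log (by positivity) (by gcongr; exact le_max_left _ _)
    have h3 := tangent hx0 hm hL
    have h4 : x * y * -Real.log (max x y / L) ≤ y * (x * Real.log (L / x)) := by
      calc x * y * -Real.log (max x y / L) ≤ x * y * Real.log (L / x) := by gcongr
        _ = _ := by ring
    have h5 : y * (x * Real.log (L / x)) ≤ y * (x * Real.log (L / m) + m) := by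
      refine mul_le_mul_of_nonneg_left ?_ hy
      linarith
    have h6 : 0 ≤ x * y * ((x + y) / L) := by positivity
    linarith

variable [Fintype ι]

/-- first absolute moment -/
noncomputable def m1 (p : ι → ℝ) (u : ι → H) : ℝ := ∑ i, p i * ‖u i‖

/-- second moment -/
noncomputable def V2 (p : ι → ℝ) (u : ι → H) : ℝ := ∑ i, p i * ‖u i‖ ^ 2

theorem m1_nonneg {p : ι → ℝ} (hp : ∀ i, 0 ≤ p i) (u : ι → H) : 0 ≤ m1 p u :=
  Finset.sum_nonneg fun i _ => mul_nonneg (hp i) (norm_nonneg _)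

theorem V2_nonneg {p : ι → ℝ} (hp : ∀ i, 0 ≤ p i) (u : ι → H) : 0 ≤ V2 p u :=
  Finset.sum_nonneg fun i _ => mul_nonneg (hp i) (sq_nonneg _)

theorem m1_sq_le {p : ι → ℝ} (hp : ∀ i, 0 ≤ p i) (hs : ∑ i, p i = 1) (u : ι → H) :
    m1 p u ^ 2 ≤ V2 p u := by
  have h := Finset.sum_mul_sq_le_sq_mul_sq Finset.univ (fun i => Real.sqrt (p i))
    (fun i => Real.sqrt (p i) * ‖u i‖)
  have h1 : ∀ i, Real.sqrt (p i) * (Real.sqrt (p i) * ‖u i‖) = p i * ‖u i‖ := fun i => by
    rw [← mul_assoc, Real.mul_self_sqrt (hp i)]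
  have h2 : ∀ i, Real.sqrt (p i) ^ 2 = p i := fun i => Real.sq_sqrt (hp i)
  have h3 : ∀ i, (Real.sqrt (p i) * ‖u i‖) ^ 2 = p i * ‖u i‖ ^ 2 := fun i => by
    rw [mul_pow, h2]
  simp only [h1, h2, h3, hs, one_mul] at h
  exact h

/-- **MOBILITY, main inequality** -/
theorem mob {p : ι → ℝ} (hp : ∀ i, 0 ≤ p i) (hs : ∑ i, p i = 1) (u : ι → H)
    (hm : 0 < m1 p u) :
    ∑ i, ∑ j, p i * p j * (psi (u i - u j) - psi (u i) - psi (u j)) ≤
      25 * m1 p u ^ 2 * (1 + Real.log (V2 p u / m1 p u ^ 2)) -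
        2 * (1 + 2 * Real.log (V2 p u / m1 p u)) * ‖∑ i, p i • u i‖ ^ 2 := by
  set m := m1 p u with hmdef
  set V := V2 p u with hVdef
  have hmV : m ^ 2 ≤ V := m1_sq_le hp hs u
  have hV : 0 < V := (by positivity : 0 < m ^ 2).trans_le hmV
  set L := V / m with hL
  have hL0 : 0 < L := by positivity
  have hmL : m ≤ L := by
    rw [hL, le_div_iff₀ hm]
    nlinarith
  have hLm : L / m = V / m ^ 2 := by
    rw [hL]; field_simp
  have key : ∀ i j, p i * p j * (psi (u i - u j) - psi (u i) - psi (u j)) ≤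
      13 * ((p i * ‖u i‖) * (p j * ‖u j‖)) -
        2 * (1 + 2 * Real.log L) * inner ℝ (p i • u i) (p j • u j) +
        4 * ((p i * ‖u i‖ ^ 2) * (p j * ‖u j‖) / L + (p i * ‖u i‖) * (p j * ‖u j‖ ^ 2) / L +
          ((p i * ‖u i‖) * (p j * ‖u j‖)) * Real.log (L / m) + p i * (p j * ‖u j‖) * m) := by
    intro i j
    have h1 := psi_sub_le (a := u i) (b := u j) L hL0
    have h2 := abs_log_max_le (norm_nonneg (u i)) (norm_nonneg (u j)) hm hmL
    have hpp : 0 ≤ p i * p j := mul_nonneg (hp i) (hp j)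
    have h3 : psi (u i - u j) - psi (u i) - psi (u j) ≤
        13 * (‖u i‖ * ‖u j‖) - 2 * inner ℝ (u i) (u j) * (1 + 2 * Real.log L) +
        4 * (‖u i‖ * ‖u j‖ * ((‖u i‖ + ‖u j‖) / L) + ‖u j‖ * (‖u i‖ * Real.log (L / m) + m)) := by
      linarith
    refine (mul_le_mul_of_nonneg_left h3 hpp).trans (le_of_eq ?_)
    rw [real_inner_smul_left, real_inner_smul_right]
    ring
  refine (Finset.sum_le_sum fun i _ => Finset.sum_le_sum fun j _ => key i j).trans ?_
  simp only [Finset.sum_add_distrib, Finset.sum_sub_distrib, ← Finset.mul_sum,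
    ← Finset.sum_mul, ← Finset.sum_div]
  have hin : ∑ i, ∑ j, inner ℝ (p i • u i) (p j • u j) = ‖∑ i, p i • u i‖ ^ 2 := by
    rw [← real_inner_self_eq_norm_sq, sum_inner]
    refine Finset.sum_congr rfl fun i _ => ?_
    rw [inner_sum]
  have e1 : ∑ i, p i * ‖u i‖ = m := rfl
  have e2 : ∑ i, p i * ‖u i‖ ^ 2 = V := rfl
  rw [hin, e1, e2, hs, hLm]
  have e3 : V * m / L = m ^ 2 := by
    rw [hL]; field_simp
  have e4 : m * V / L = m ^ 2 := by rw [mul_comm, e3]
  rw [e3, e4]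
  have hlog : 0 ≤ Real.log (V / m ^ 2) :=
    Real.log_nonneg (by rw [one_le_div (by positivity)]; exact hmV)
  have : 0 ≤ m ^ 2 * Real.log (V / m ^ 2) := by positivity
  nlinarith

/-- **MOBILITY**, with a lower bound `c0` for the nonzero lengths -/
theorem mob' {p : ι → ℝ} (hp : ∀ i, 0 ≤ p i) (hs : ∑ i, p i = 1) (u : ι → H)
    {c0 : ℝ} (hc0 : 0 < c0) (hu : ∀ i, u i = 0 ∨ c0 ≤ ‖u i‖) :
    ∑ i, ∑ j, p i * p j * (psi (u i - u j) - psi (u i) - psi (u j)) ≤
      (25 + 2 * max 0 (-(1 + 2 * Real.log c0))) * m1 p u ^ 2 *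
        (1 + Real.log (V2 p u / m1 p u ^ 2)) := by
  rcases (m1_nonneg hp u).eq_or_lt with h | hm
  · -- all vectors of positive weight vanish
    have h0 : ∀ i, p i * ‖u i‖ = 0 := by
      intro i
      have := (Finset.sum_eq_zero_iff_of_nonneg
        (fun i _ => mul_nonneg (hp i) (norm_nonneg (u i)))).1 h.symm
      exact this i (Finset.mem_univ i)
    have h1 : ∀ i j, p i * p j * (psi (u i - u j) - psi (u i) - psi (u j)) = 0 := by
      intro i j
      rcases mul_eq_zero.1 (h0 i) with h2 | h2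
      · simp [h2]
      · have h2' : u i = 0 := norm_eq_zero.1 h2
        rcases mul_eq_zero.1 (h0 j) with h3 | h3
        · simp [h3]
        · have h3' : u j = 0 := norm_eq_zero.1 h3
          simp [h2', h3', psi_zero]
    rw [← h]
    simp [h1]
  have hmV : m1 p u ^ 2 ≤ V2 p u := m1_sq_le hp hs u
  have hV : 0 < V2 p u := (by positivity : 0 < m1 p u ^ 2).trans_le hmV
  refine (mob hp hs u hm).trans ?_
  have hcV : c0 * m1 p u ≤ V2 p u := by
    unfold m1 V2
    rw [Finset.mul_sum]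
    refine Finset.sum_le_sum fun i _ => ?_
    rcases hu i with h | h
    · simp [h]
    · have := mul_le_mul_of_nonneg_left h (mul_nonneg (hp i) (norm_nonneg (u i)))
      nlinarith
  have hlogc : Real.log c0 ≤ Real.log (V2 p u / m1 p u) :=
    Real.log_le_log hc0 (by rwa [le_div_iff₀ hm])
  have hmu : ‖∑ i, p i • u i‖ ^ 2 ≤ m1 p u ^ 2 := by
    refine pow_le_pow_left₀ (norm_nonneg _) ?_ 2
    refine (norm_sum_le _ _).trans (Finset.sum_le_sum fun i _ => ?_)
    rw [norm_smul, Real.norm_of_nonneg (hp i)]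
  set X := max 0 (-(1 + 2 * Real.log c0)) with hX
  have hX0 : 0 ≤ X := le_max_left _ _
  have hX1 : -(1 + 2 * Real.log c0) ≤ X := le_max_right _ _
  have h5 : -(2 * (1 + 2 * Real.log (V2 p u / m1 p u)) * ‖∑ i, p i • u i‖ ^ 2) ≤
      2 * X * m1 p u ^ 2 := by
    have h6 : -(1 + 2 * Real.log (V2 p u / m1 p u)) ≤ X := by linarith
    have h7 : -(1 + 2 * Real.log (V2 p u / m1 p u)) * ‖∑ i, p i • u i‖ ^ 2 ≤
        X * ‖∑ i, p i • u i‖ ^ 2 := mul_le_mul_of_nonneg_right h6 (sq_nonneg _)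
    have h8 : X * ‖∑ i, p i • u i‖ ^ 2 ≤ X * m1 p u ^ 2 := mul_le_mul_of_nonneg_left hmu hX0
    linarith
  have hlog : 0 ≤ Real.log (V2 p u / m1 p u ^ 2) :=
    Real.log_nonneg (by rw [one_le_div (by positivity)]; exact hmV)
  have h9 : 2 * X * m1 p u ^ 2 ≤ 2 * X * m1 p u ^ 2 * (1 + Real.log (V2 p u / m1 p u ^ 2)) := by
    have : 0 ≤ 2 * X * m1 p u ^ 2 * Real.log (V2 p u / m1 p u ^ 2) := by positivity
    linarith
  linarith

/-- mobile sites: if `m1² ≥ θ V` then the mass of `|u| ≥ m1 / 2` is at least `θ / 4` -/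
theorem mass_of_mobile {p : ι → ℝ} (hp : ∀ i, 0 ≤ p i) (hs : ∑ i, p i = 1) (u : ι → H)
    (hm : 0 < m1 p u) :
    m1 p u ^ 2 / (4 * V2 p u) ≤ ∑ i, if m1 p u / 2 ≤ ‖u i‖ then p i else 0 := by
  classical
  set m := m1 p u with hmdef
  set V := V2 p u with hVdef
  have hmV : m ^ 2 ≤ V := m1_sq_le hp hs u
  have hV : 0 < V := (by positivity : 0 < m ^ 2).trans_le hmV
  set q : ι → ℝ := fun i => if m / 2 ≤ ‖u i‖ then p i else 0 with hq
  have hq0 : ∀ i, 0 ≤ q i := fun i => by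
    simp only [hq]; split_ifs
    · exact hp i
    · exact le_rfl
  have h1 : m / 2 ≤ ∑ i, q i * ‖u i‖ := by
    have h2 : m ≤ ∑ i, (q i * ‖u i‖ + p i * (m / 2)) := by
      rw [hmdef]
      unfold m1
      refine Finset.sum_le_sum fun i _ => ?_
      simp only [hq]
      split_ifs with h
      · have : 0 ≤ p i * (m / 2) := mul_nonneg (hp i) (by positivity)
        rw [hmdef] at this
        unfold m1 at this
        linarith
      · push Not at h
        rw [hmdef] at h
        unfold m1 at h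
        have := mul_le_mul_of_nonneg_left h.le (hp i)
        linarith
    rw [Finset.sum_add_distrib, ← Finset.sum_mul, hs] at h2
    linarith
  have h3 := Finset.sum_mul_sq_le_sq_mul_sq Finset.univ (fun i => Real.sqrt (q i))
    (fun i => Real.sqrt (q i) * ‖u i‖)
  have h4 : ∀ i, Real.sqrt (q i) * (Real.sqrt (q i) * ‖u i‖) = q i * ‖u i‖ := fun i => by
    rw [← mul_assoc, Real.mul_self_sqrt (hq0 i)]
  have h5 : ∀ i, Real.sqrt (q i) ^ 2 = q i := fun i => Real.sq_sqrt (hq0 i)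
  have h6 : ∀ i, (Real.sqrt (q i) * ‖u i‖) ^ 2 = q i * ‖u i‖ ^ 2 := fun i => by
    rw [mul_pow, h5]
  simp only [h4, h5, h6] at h3
  have h7 : ∑ i, q i * ‖u i‖ ^ 2 ≤ V := by
    rw [hVdef]
    refine Finset.sum_le_sum fun i _ => ?_
    refine mul_le_mul_of_nonneg_right ?_ (sq_nonneg _)
    simp only [hq]; split_ifs
    · exact le_rfl
    · exact hp i
  have h8 : (m / 2) ^ 2 ≤ (∑ i, q i) * V := by
    calc (m / 2) ^ 2 ≤ (∑ i, q i * ‖u i‖) ^ 2 := pow_le_pow_left₀ (by positivity) h1 2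
      _ ≤ (∑ i, q i) * ∑ i, q i * ‖u i‖ ^ 2 := h3
      _ ≤ (∑ i, q i) * V :=
        mul_le_mul_of_nonneg_left h7 (Finset.sum_nonneg fun i _ => hq0 i)
  rw [div_le_iff₀ (by positivity)]
  nlinarith

end P365H219
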