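import Vale.Agent.P365.H219.Grow4
import Vale.Agent.P365.T2.H912.XThm
import Vale.Agent.P365.T2.H629.ErrSmall

/-!
# P365-T2: `DPart` and `LPart` of 912's `xthm_of`, over 629's functionals
-/

set_option linter.all false

namespace P365H219

open P365L P365O P365T1 P365L.TL P365T2.H213 Matrix Complex MeasureTheory Filter Topology Set
open Vale.Agent.P365.J376 P365T1.Conc P365T2.X629 P365T2.H320U P365T2.H912
open scoped ComplexConjugate ENNReal

/-- **energy part**: energy and loss of the union family -/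
theorem dPart {lam E C1 : ℝ} (hlam : 0 < lam) (hC1 : 0 < C1) :
    DPart lam E C1 (fun N _ W τ => EnX W E C1 τ) (fun N _ W τ => LossX W E C1 τ) := by
  have hc := CauC_nonneg lam E
  set K : ℝ := 10 * CauC lam E * (C1 + 1) * 4 ^ 2 + 1 with hK
  have hK0 : 0 < K := by positivity
  refine ⟨C1 * 4 ^ 2, by positivity, fun ε hε => ⟨min 1 (ε / K),
    lt_min one_pos (by positivity), fun N _ W _ h => ?_⟩⟩
  set η : ℝ := min 1 (ε / K) with hη
  have hη0 : 0 < η := lt_min one_pos (by positivity)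
  have e1 : η ≤ 1 := min_le_left _ _
  have e3 : η ≤ ε / K := min_le_right _ _
  have hF : VecLip (uF N (nJ C1 W.S)) 4 := VecLip_uF
  refine ⟨fun τ hτ => DW_le h hτ (by norm_num) hF, (cont_DW h (uF N (nJ C1 W.S))).continuousOn,
    fun τ _ => LsW_nonneg h (uF N (nJ C1 W.S)) τ, fun τ hτ => ?_⟩
  obtain ⟨d, hd1, hd2⟩ := dflow h hlam hη0 e1 hC1 ⟨hτ.1.le, hτ.2.le⟩ (by norm_num) hF
  refine ⟨d, hd1, ?_⟩
  rw [le_div_iff₀ hK0] at e3
  have h5 : 10 * CauC lam E * (C1 + 1) * 4 ^ 2 * η ≤ η * K := by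
    rw [hK]
    nlinarith
  have h6 := (abs_le.1 (hd2.trans (h5.trans e3))).2
  show d ≤ -LsW W E (uF N (nJ C1 W.S)) τ + ε
  linarith

/-- **logarithmic energy** -/
theorem lPart {lam E C1 d0 : ℝ} (hlam : 0 < lam) (hC1 : 0 < C1) (hd : 0 < d0) :
    LPart lam E C1 d0 (fun N _ W τ => GrX W E τ) := by
  have hc := CauC_nonneg lam E
  set K : ℝ := 80 * CauC lam E * (C1 + 1) + 1 with hK
  have hK0 : 0 < K := by positivity
  refine ⟨2368 * C1, d0 / 16, by positivity, by positivity, fun ε hε =>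
    ⟨min (etaX d0 C1) (ε / K), lt_min (etaX_pos hd hC1) (by positivity),
      fun N _ W _ h hD => ?_⟩⟩
  set η : ℝ := min (etaX d0 C1) (ε / K) with hη
  have hη0 : 0 < η := lt_min (etaX_pos hd hC1) (by positivity)
  have e2 : η ≤ etaX d0 C1 := min_le_left _ _
  have e1 : η ≤ 1 := e2.trans ((min_le_left _ _).trans (min_le_left _ _))
  have e3 : η ≤ ε / K := min_le_right _ _
  have hS0 : 0 ≤ W.S := by linarith [stw_S_ge_one h hη0 e1]
  have hmem : ∀ {τ}, τ ∈ Ioo 0 W.S → τ ∈ Icc 0 W.S := fun h => ⟨h.1.le, h.2.le⟩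
  refine ⟨fun τ hτ => GW_le h (nL W.S) (hmem hτ), LX W E,
    (cont_LW h (nL W.S)).continuousOn, fun τ hτ => ?_,
    LX_growth h hd hη0 hC1 e2 (hD W.S (right_mem_Icc.2 hS0))⟩
  obtain ⟨d, hd1, hd2⟩ := lflow h hlam hη0 e1 hC1 (nL_le hS0) (hmem hτ)
  refine ⟨d, hd1, ?_⟩
  rw [le_div_iff₀ hK0] at e3
  have h5 : 80 * CauC lam E * (C1 + 1) * η ≤ η * K := by
    rw [hK]
    nlinarith
  have h6 := (abs_le.1 (hd2.trans (h5.trans e3))).2
  show d ≤ GW W E (nL W.S) τ + ε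
  linarith

/-- **errors** (629's `err_small`) -/
theorem errPart {lam E C1 : ℝ} (hC1 : 0 < C1) :
    ErrPart lam E C1 (fun N _ W τ => ErrX W E C1 τ) := by
  intro ε hε
  obtain ⟨η₀, hη₀, h1⟩ := err_small hC1 hε
  exact ⟨η₀, hη₀, fun N _ W _ h τ hτ => h1 W η₀ hη₀ le_rfl h τ ⟨hτ.1.le, hτ.2.le⟩⟩

end P365H219
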