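import Vale.Agent.P365.H219.Parts

/-!
# P365-T2: `DPart` for a multiple of the energy and of the loss (509's factor)
-/

set_option linter.all false

namespace P365H219

open P365L P365O P365T1 P365L.TL P365T2.H213 Matrix Complex MeasureTheory Filter Topology Set
open Vale.Agent.P365.J376 P365T1.Conc P365T2.X629 P365T2.H320U P365T2.H912
open scoped ComplexConjugate ENNReal

/-- `DPart` is stable under a positive factor -/
theorem DPart.mul {lam E C1 c : ℝ} {En Loss : Fn} (hc : 0 < c) (h : DPart lam E C1 En Loss) :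
    DPart lam E C1 (fun N _ W τ => c * En N W τ) (fun N _ W τ => c * Loss N W τ) := by
  obtain ⟨K, hK, h⟩ := h
  refine ⟨c * K, by positivity, fun ε hε => ?_⟩
  obtain ⟨η, hη, h⟩ := h (ε / c) (by positivity)
  refine ⟨η, hη, fun N _ W h1 h2 => ?_⟩
  obtain ⟨a1, a2, a3, a4⟩ := h N W h1 h2
  refine ⟨fun τ hτ => mul_le_mul_of_nonneg_left (a1 τ hτ) hc.le, a2.const_mul c,
    fun τ hτ => mul_nonneg hc.le (a3 τ hτ), fun τ hτ => ?_⟩
  obtain ⟨d, hd, hd'⟩ := a4 τ hτ
  refine ⟨c * d, hd.const_mul c, ?_⟩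
  have h3 := mul_le_mul_of_nonneg_left hd' hc.le
  have h4 : c * (-Loss N W τ + ε / c) = -(c * Loss N W τ) + ε := by
    field_simp
  exact h3.trans (le_of_eq h4)

/-- energy part with a factor -/
theorem dPart_mul {lam E C1 c : ℝ} (hlam : 0 < lam) (hC1 : 0 < C1) (hc : 0 < c) :
    DPart lam E C1 (fun N _ W τ => c * EnX W E C1 τ) (fun N _ W τ => c * LossX W E C1 τ) :=
  DPart.mul hc (dPart hlam hC1)

end P365H219
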