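import Mathlib

/-!
# P365-T2: trigonometric families instead of the logarithmic kernel (T-L), deterministic part

`q j u = 2 · 4^j (1 - cos (u / 2^j)) ≤ u²`; the loss of the family `j` at a row with weights `p` is
`4^j |1 - E e^{i u / 2^j}|²`; the sum over `j` of (loss - (E u)²) is at most
`C m² (1 + log (V / m²))`, `E |u| ≤ m`, `E u² ≤ V`.
-/

set_option linter.all false

namespace P365H219

open Finset Real

/-! ### dyadic sums -/

theorem sum_half_pow_le (S : Finset ℕ) {c : ℝ} (hc : 0 ≤ c) (h : ∀ j ∈ S, ((2 : ℝ) ^ j)⁻¹ ≤ c) :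
    ∑ j ∈ S, ((2 : ℝ) ^ j)⁻¹ ≤ 2 * c := by
  rcases S.eq_empty_or_nonempty with h0 | h0
  · subst h0; simpa using hc
  set j0 := S.min' h0 with hj0
  set n := S.max' h0 + 1 with hn
  have hsub : S ⊆ Finset.Ico j0 n := by
    intro j hj
    rw [Finset.mem_Ico]
    exact ⟨Finset.min'_le S j hj, Nat.lt_succ_of_le (Finset.le_max' S j hj)⟩
  have h1 : ∑ j ∈ S, ((2 : ℝ) ^ j)⁻¹ ≤ ∑ j ∈ Finset.Ico j0 n, ((2 : ℝ) ^ j)⁻¹ :=
    Finset.sum_le_sum_of_subset_of_nonneg hsub fun j _ _ => by positivity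
  have h2 : ∑ j ∈ Finset.Ico j0 n, ((2 : ℝ) ^ j)⁻¹ =
      ((2 : ℝ) ^ j0)⁻¹ * ∑ k ∈ Finset.range (n - j0), (1 / (2 : ℝ)) ^ k := by
    rw [Finset.sum_Ico_eq_sum_range, Finset.mul_sum]
    refine Finset.sum_congr rfl fun k _ => ?_
    rw [pow_add, mul_inv, one_div, inv_pow]
  have h3 := sum_geometric_two_le (n - j0)
  have h4 := h j0 (Finset.min'_mem S h0)
  have h5 : (0 : ℝ) ≤ ((2 : ℝ) ^ j0)⁻¹ := by positivity
  calc ∑ j ∈ S, ((2 : ℝ) ^ j)⁻¹ ≤ _ := h1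
    _ = _ := h2
    _ ≤ ((2 : ℝ) ^ j0)⁻¹ * 2 := mul_le_mul_of_nonneg_left h3 h5
    _ ≤ 2 * c := by linarith

theorem sum_two_pow_le (S : Finset ℕ) {c : ℝ} (hc : 0 ≤ c) (h : ∀ j ∈ S, (2 : ℝ) ^ j ≤ c) :
    ∑ j ∈ S, (2 : ℝ) ^ j ≤ 2 * c := by
  rcases S.eq_empty_or_nonempty with h0 | h0
  · subst h0; simpa using hc
  set n := S.max' h0 with hn
  have hsub : S ⊆ Finset.range (n + 1) := by
    intro j hj
    rw [Finset.mem_range]
    exact Nat.lt_succ_of_le (Finset.le_max' S j hj)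
  have h1 : ∑ j ∈ S, (2 : ℝ) ^ j ≤ ∑ j ∈ Finset.range (n + 1), (2 : ℝ) ^ j :=
    Finset.sum_le_sum_of_subset_of_nonneg hsub fun j _ _ => by positivity
  have h2 : ∀ k : ℕ, ∑ j ∈ Finset.range k, (2 : ℝ) ^ j = 2 ^ k - 1 := by
    intro k
    induction k with
    | zero => simp
    | succ k ih => rw [Finset.sum_range_succ, ih, pow_succ]; ring
  have h3 := h n (Finset.max'_mem S h0)
  rw [h2, pow_succ] at h1
  linarith

theorem card_dyadic_le (S : Finset ℕ) {A B : ℝ} (hB : 0 < B) (hAB : B ≤ A)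
    (h1 : ∀ j ∈ S, B ≤ (2 : ℝ) ^ j) (h2 : ∀ j ∈ S, (2 : ℝ) ^ j ≤ A) :
    (S.card : ℝ) ≤ 1 + 2 * Real.log (A / B) := by
  have hA : 0 < A := hB.trans_le hAB
  have hl : 0 ≤ Real.log (A / B) := Real.log_nonneg (by rwa [one_le_div hB])
  rcases S.eq_empty_or_nonempty with h0 | h0
  · subst h0; simp; linarith
  set j0 := S.min' h0 with hj0
  set j1 := S.max' h0 with hj1
  have hle : j0 ≤ j1 := Finset.min'_le_max' S h0
  have hsub : S ⊆ Finset.Icc j0 j1 := by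
    intro j hj
    rw [Finset.mem_Icc]
    exact ⟨Finset.min'_le S j hj, Finset.le_max' S j hj⟩
  have hc : S.card ≤ j1 + 1 - j0 := by
    have := Finset.card_le_card hsub
    rwa [Nat.card_Icc] at this
  have hc' : (S.card : ℝ) ≤ 1 + ((j1 - j0 : ℕ) : ℝ) := by
    have : S.card ≤ 1 + (j1 - j0) := by omega
    exact_mod_cast this
  have h3 := h1 j0 (Finset.min'_mem S h0)
  have h4 := h2 j1 (Finset.max'_mem S h0)
  have h5 : (2 : ℝ) ^ (j1 - j0) ≤ A / B := by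
    rw [le_div_iff₀ hB]
    calc (2 : ℝ) ^ (j1 - j0) * B ≤ 2 ^ (j1 - j0) * 2 ^ j0 := by gcongr
      _ = 2 ^ j1 := by rw [← pow_add]; congr 1; omega
      _ ≤ A := h4
  have h6 : ((j1 - j0 : ℕ) : ℝ) * Real.log 2 ≤ Real.log (A / B) := by
    rw [← Real.log_pow]
    exact Real.log_le_log (by positivity) h5
  have h7 : (1 / 2 : ℝ) ≤ Real.log 2 := by
    have := Real.log_two_gt_d9
    linarith
  have h8 : (0 : ℝ) ≤ ((j1 - j0 : ℕ) : ℝ) := Nat.cast_nonneg _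
  nlinarith

/-! ### one-variable trigonometric bounds -/

theorem one_sub_cos_le_sq (t : ℝ) : 1 - Real.cos t ≤ t ^ 2 / 2 := by
  have := Real.one_sub_sq_div_two_le_cos (x := t)
  linarith

theorem one_sub_cos_le_abs (t : ℝ) : 1 - Real.cos t ≤ |t| := by
  rcases le_total |t| 2 with h | h
  · have h1 := one_sub_cos_le_sq t
    have h2 : t ^ 2 = |t| ^ 2 := (sq_abs t).symm
    have h3 := abs_nonneg t
    nlinarith
  · have := Real.neg_one_le_cos t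
    linarith

theorem abs_sin_sub_le_abs (t : ℝ) : |Real.sin t - t| ≤ 2 * |t| := by
  have h1 : |Real.sin t| ≤ |t| := Real.abs_sin_le_abs
  calc |Real.sin t - t| ≤ |Real.sin t| + |t| := abs_sub _ _
    _ ≤ 2 * |t| := by linarith

theorem abs_sin_sub_le_sq (t : ℝ) : |Real.sin t - t| ≤ 2 * t ^ 2 := by
  rcases le_total 1 |t| with h | h
  · have h1 := abs_sin_sub_le_abs t
    have h2 : t ^ 2 = |t| ^ 2 := (sq_abs t).symm
    nlinarith
  · have h1 : ∀ s : ℝ, 0 ≤ s → s ≤ 1 → |Real.sin s - s| ≤ 2 * s ^ 2 := by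
      intro s hs0 hs1
      rcases hs0.eq_or_lt with h0 | h0
      · subst h0; simp
      · have h2 := Real.sin_gt_sub_cube h0
        have h3 := Real.sin_le hs0
        rw [abs_of_nonpos (by linarith)]
        have h4 : s ^ 3 ≤ s ^ 2 := by
          calc s ^ 3 = s ^ 2 * s := by ring
            _ ≤ s ^ 2 * 1 := by gcongr
            _ = s ^ 2 := mul_one _
        nlinarith
    rcases le_total 0 t with ht | ht
    · exact h1 t ht ((abs_of_nonneg ht) ▸ h)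
    · have h2 := h1 (-t) (by linarith) (by rw [abs_of_nonpos ht] at h; exact h)
      rw [Real.sin_neg, neg_sq] at h2
      have h3 : |-Real.sin t - -t| = |Real.sin t - t| := by
        rw [← abs_neg]; congr 1; ring
      rwa [h3] at h2

/-! ### the loss of the trigonometric family at a row -/

section row

variable {ι : Type*} [Fintype ι]

/-- loss of the family `j`: `4^j |1 - E e^{i u / 2^j}|²` -/
noncomputable def ls (p u : ι → ℝ) (j : ℕ) : ℝ :=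
  4 ^ j * ((∑ i, p i * (1 - Real.cos (u i / 2 ^ j))) ^ 2 +
    (∑ i, p i * Real.sin (u i / 2 ^ j)) ^ 2)

variable {p u : ι → ℝ} {m V : ℝ}

theorem ls_bounds (hp : ∀ i, 0 ≤ p i) (hm : ∑ i, p i * |u i| ≤ m)
    (hV : ∑ i, p i * u i ^ 2 ≤ V) (j : ℕ) :
    0 ≤ ∑ i, p i * (1 - Real.cos (u i / 2 ^ j)) ∧
    ∑ i, p i * (1 - Real.cos (u i / 2 ^ j)) ≤ ((2 : ℝ) ^ j)⁻¹ ^ 2 * V / 2 ∧
    ∑ i, p i * (1 - Real.cos (u i / 2 ^ j)) ≤ ((2 : ℝ) ^ j)⁻¹ * m ∧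
    |∑ i, p i * Real.sin (u i / 2 ^ j) - ((2 : ℝ) ^ j)⁻¹ * ∑ i, p i * u i| ≤
      2 * (((2 : ℝ) ^ j)⁻¹ ^ 2 * V) ∧
    |∑ i, p i * Real.sin (u i / 2 ^ j) - ((2 : ℝ) ^ j)⁻¹ * ∑ i, p i * u i| ≤
      2 * (((2 : ℝ) ^ j)⁻¹ * m) := by
  set θ : ℝ := ((2 : ℝ) ^ j)⁻¹ with hθ
  have hθ0 : 0 < θ := by positivity
  have hdiv : ∀ i, u i / 2 ^ j = θ * u i := fun i => by rw [hθ]; ring
  have hSeq : ∑ i, p i * Real.sin (u i / 2 ^ j) - θ * ∑ i, p i * u i =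
      ∑ i, p i * (Real.sin (θ * u i) - θ * u i) := by
    rw [Finset.mul_sum, ← Finset.sum_sub_distrib]
    refine Finset.sum_congr rfl fun i _ => ?_
    rw [hdiv]; ring
  refine ⟨?_, ?_, ?_, ?_, ?_⟩
  · refine Finset.sum_nonneg fun i _ => mul_nonneg (hp i) ?_
    have := Real.cos_le_one (u i / 2 ^ j)
    linarith
  · calc ∑ i, p i * (1 - Real.cos (u i / 2 ^ j)) ≤ ∑ i, p i * ((θ * u i) ^ 2 / 2) := by
          refine Finset.sum_le_sum fun i _ => mul_le_mul_of_nonneg_left ?_ (hp i)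
          rw [hdiv]; exact one_sub_cos_le_sq _
      _ = θ ^ 2 * (∑ i, p i * u i ^ 2) / 2 := by
          rw [Finset.mul_sum, Finset.sum_div]
          refine Finset.sum_congr rfl fun i _ => ?_
          ring
      _ ≤ θ ^ 2 * V / 2 := by gcongr
  · calc ∑ i, p i * (1 - Real.cos (u i / 2 ^ j)) ≤ ∑ i, p i * |θ * u i| := by
          refine Finset.sum_le_sum fun i _ => mul_le_mul_of_nonneg_left ?_ (hp i)
          rw [hdiv]; exact one_sub_cos_le_abs _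
      _ = θ * ∑ i, p i * |u i| := by
          rw [Finset.mul_sum]
          refine Finset.sum_congr rfl fun i _ => ?_
          rw [abs_mul, abs_of_pos hθ0]; ring
      _ ≤ θ * m := by gcongr
  · rw [hSeq]
    refine (Finset.abs_sum_le_sum_abs _ _).trans ?_
    calc ∑ i, |p i * (Real.sin (θ * u i) - θ * u i)| ≤ ∑ i, p i * (2 * (θ * u i) ^ 2) := by
          refine Finset.sum_le_sum fun i _ => ?_
          rw [abs_mul, abs_of_nonneg (hp i)]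
          exact mul_le_mul_of_nonneg_left (abs_sin_sub_le_sq _) (hp i)
      _ = 2 * (θ ^ 2 * ∑ i, p i * u i ^ 2) := by
          rw [Finset.mul_sum, Finset.mul_sum]
          refine Finset.sum_congr rfl fun i _ => ?_
          ring
      _ ≤ 2 * (θ ^ 2 * V) := by gcongr
  · rw [hSeq]
    refine (Finset.abs_sum_le_sum_abs _ _).trans ?_
    calc ∑ i, |p i * (Real.sin (θ * u i) - θ * u i)| ≤ ∑ i, p i * (2 * |θ * u i|) := by
          refine Finset.sum_le_sum fun i _ => ?_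
          rw [abs_mul, abs_of_nonneg (hp i)]
          exact mul_le_mul_of_nonneg_left (abs_sin_sub_le_abs _) (hp i)
      _ = 2 * (θ * ∑ i, p i * |u i|) := by
          rw [Finset.mul_sum, Finset.mul_sum]
          refine Finset.sum_congr rfl fun i _ => ?_
          rw [abs_mul, abs_of_pos hθ0]; ring
      _ ≤ 2 * (θ * m) := by gcongr

/-- the excess loss of the family `j` -/
theorem ls_sub_eq (j : ℕ) :
    ls p u j - (∑ i, p i * u i) ^ 2 =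
      4 ^ j * ((∑ i, p i * (1 - Real.cos (u i / 2 ^ j))) ^ 2 +
        (∑ i, p i * Real.sin (u i / 2 ^ j) - ((2 : ℝ) ^ j)⁻¹ * ∑ i, p i * u i) ^ 2) +
      2 * 2 ^ j * (∑ i, p i * u i) *
        (∑ i, p i * Real.sin (u i / 2 ^ j) - ((2 : ℝ) ^ j)⁻¹ * ∑ i, p i * u i) := by
  unfold ls
  have h4 : (4 : ℝ) ^ j = 2 ^ j * 2 ^ j := by
    rw [← mul_pow]; norm_num
  have h2 : (2 : ℝ) ^ j ≠ 0 := by positivity
  rw [h4]
  field_simp
  ring

theorem ls_case_far (hp : ∀ i, 0 ≤ p i) (hm0 : 0 < m) (hV0 : 0 < V)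
    (hm : ∑ i, p i * |u i| ≤ m) (hV : ∑ i, p i * u i ^ 2 ≤ V) {j : ℕ}
    (hj : ((2 : ℝ) ^ j)⁻¹ ≤ m / V) :
    ls p u j - (∑ i, p i * u i) ^ 2 ≤ 9 * (m * V) * ((2 : ℝ) ^ j)⁻¹ := by
  obtain ⟨hC0, hC1, hC2, hS1, hS2⟩ := ls_bounds hp hm hV j
  rw [ls_sub_eq]
  set C := ∑ i, p i * (1 - Real.cos (u i / 2 ^ j)) with hC
  set S := ∑ i, p i * Real.sin (u i / 2 ^ j) - ((2 : ℝ) ^ j)⁻¹ * ∑ i, p i * u i with hS
  set μ := ∑ i, p i * u i with hμ
  set θ : ℝ := ((2 : ℝ) ^ j)⁻¹ with hθ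
  have hθ0 : 0 < θ := by positivity
  have h2 : (2 : ℝ) ^ j = θ⁻¹ := by rw [hθ, inv_inv]
  have h4 : (4 : ℝ) ^ j = θ⁻¹ ^ 2 := by
    rw [← h2, ← pow_mul, mul_comm, pow_mul]; norm_num
  have hμm : |μ| ≤ m := by
    refine (Finset.abs_sum_le_sum_abs _ _).trans (le_trans (le_of_eq ?_) hm)
    refine Finset.sum_congr rfl fun i _ => ?_
    rw [abs_mul, abs_of_nonneg (hp i)]
  have hCs : C ^ 2 ≤ (θ ^ 2 * V / 2) ^ 2 := pow_le_pow_left₀ hC0 hC1 2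
  have hSs : S ^ 2 ≤ (2 * (θ ^ 2 * V)) ^ 2 := by
    rw [← sq_abs]
    exact pow_le_pow_left₀ (abs_nonneg _) hS1 2
  have hμS : μ * S ≤ m * (2 * (θ ^ 2 * V)) := by
    calc μ * S ≤ |μ * S| := le_abs_self _
      _ = |μ| * |S| := abs_mul _ _
      _ ≤ m * (2 * (θ ^ 2 * V)) := by gcongr
  rw [h4, h2]
  have hθV : θ * V ≤ m := by
    rw [le_div_iff₀ hV0] at hj; exact hj
  have e1 : θ⁻¹ ^ 2 * (C ^ 2 + S ^ 2) ≤
      θ⁻¹ ^ 2 * ((θ ^ 2 * V / 2) ^ 2 + (2 * (θ ^ 2 * V)) ^ 2) := by gcongr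
  have e2 : θ⁻¹ ^ 2 * ((θ ^ 2 * V / 2) ^ 2 + (2 * (θ ^ 2 * V)) ^ 2) = (17 / 4) * (θ * V) ^ 2 := by
    field_simp; ring
  have e3 : 2 * θ⁻¹ * (μ * S) ≤ 2 * θ⁻¹ * (m * (2 * (θ ^ 2 * V))) := by gcongr
  have e4 : 2 * θ⁻¹ * (m * (2 * (θ ^ 2 * V))) = 4 * (m * V * θ) := by
    field_simp; ring
  have e5 : (θ * V) ^ 2 ≤ m * V * θ := by
    have : 0 ≤ θ * V := by positivity
    nlinarith
  have e6 : 0 ≤ m * V * θ := by positivity
  calc θ⁻¹ ^ 2 * (C ^ 2 + S ^ 2) + 2 * θ⁻¹ * μ * S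
      = θ⁻¹ ^ 2 * (C ^ 2 + S ^ 2) + 2 * θ⁻¹ * (μ * S) := by ring
    _ ≤ 9 * (m * V) * θ := by linarith

theorem ls_case_mid (hp : ∀ i, 0 ≤ p i) (hm0 : 0 < m)
    (hm : ∑ i, p i * |u i| ≤ m) (hV : ∑ i, p i * u i ^ 2 ≤ V) (j : ℕ) :
    ls p u j - (∑ i, p i * u i) ^ 2 ≤ 9 * m ^ 2 := by
  obtain ⟨hC0, hC1, hC2, hS1, hS2⟩ := ls_bounds hp hm hV j
  rw [ls_sub_eq]
  set C := ∑ i, p i * (1 - Real.cos (u i / 2 ^ j)) with hC
  set S := ∑ i, p i * Real.sin (u i / 2 ^ j) - ((2 : ℝ) ^ j)⁻¹ * ∑ i, p i * u i with hS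
  set μ := ∑ i, p i * u i with hμ
  set θ : ℝ := ((2 : ℝ) ^ j)⁻¹ with hθ
  have hθ0 : 0 < θ := by positivity
  have h2 : (2 : ℝ) ^ j = θ⁻¹ := by rw [hθ, inv_inv]
  have h4 : (4 : ℝ) ^ j = θ⁻¹ ^ 2 := by
    rw [← h2, ← pow_mul, mul_comm, pow_mul]; norm_num
  have hμm : |μ| ≤ m := by
    refine (Finset.abs_sum_le_sum_abs _ _).trans (le_trans (le_of_eq ?_) hm)
    refine Finset.sum_congr rfl fun i _ => ?_
    rw [abs_mul, abs_of_nonneg (hp i)]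
  have hCs : C ^ 2 ≤ (θ * m) ^ 2 := pow_le_pow_left₀ hC0 hC2 2
  have hSs : S ^ 2 ≤ (2 * (θ * m)) ^ 2 := by
    rw [← sq_abs]
    exact pow_le_pow_left₀ (abs_nonneg _) hS2 2
  have hμS : μ * S ≤ m * (2 * (θ * m)) := by
    calc μ * S ≤ |μ * S| := le_abs_self _
      _ = |μ| * |S| := abs_mul _ _
      _ ≤ m * (2 * (θ * m)) := by gcongr
  rw [h4, h2]
  have e1 : θ⁻¹ ^ 2 * (C ^ 2 + S ^ 2) ≤
      θ⁻¹ ^ 2 * ((θ * m) ^ 2 + (2 * (θ * m)) ^ 2) := by gcongr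
  have e2 : θ⁻¹ ^ 2 * ((θ * m) ^ 2 + (2 * (θ * m)) ^ 2) = 5 * m ^ 2 := by
    field_simp; ring
  have e3 : 2 * θ⁻¹ * (μ * S) ≤ 2 * θ⁻¹ * (m * (2 * (θ * m))) := by gcongr
  have e4 : 2 * θ⁻¹ * (m * (2 * (θ * m))) = 4 * m ^ 2 := by
    field_simp; ring
  calc θ⁻¹ ^ 2 * (C ^ 2 + S ^ 2) + 2 * θ⁻¹ * μ * S
      = θ⁻¹ ^ 2 * (C ^ 2 + S ^ 2) + 2 * θ⁻¹ * (μ * S) := by ring
    _ ≤ 9 * m ^ 2 := by linarith

theorem ls_case_near (hp : ∀ i, 0 ≤ p i) (hs : ∑ i, p i = 1) (hm0 : 0 < m) {j : ℕ}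
    (hj : (2 : ℝ) ^ j ≤ m) :
    ls p u j - (∑ i, p i * u i) ^ 2 ≤ 5 * m * 2 ^ j := by
  have h1 : 0 ≤ ∑ i, p i * (1 - Real.cos (u i / 2 ^ j)) := by
    refine Finset.sum_nonneg fun i _ => mul_nonneg (hp i) ?_
    have := Real.cos_le_one (u i / 2 ^ j)
    linarith
  have h2 : ∑ i, p i * (1 - Real.cos (u i / 2 ^ j)) ≤ 2 := by
    calc ∑ i, p i * (1 - Real.cos (u i / 2 ^ j)) ≤ ∑ i, p i * 2 := by
          refine Finset.sum_le_sum fun i _ => mul_le_mul_of_nonneg_left ?_ (hp i)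
          have := Real.neg_one_le_cos (u i / 2 ^ j)
          linarith
      _ = 2 := by rw [← Finset.sum_mul, hs, one_mul]
  have h3 : |∑ i, p i * Real.sin (u i / 2 ^ j)| ≤ 1 := by
    refine (Finset.abs_sum_le_sum_abs _ _).trans ?_
    calc ∑ i, |p i * Real.sin (u i / 2 ^ j)| ≤ ∑ i, p i * 1 := by
          refine Finset.sum_le_sum fun i _ => ?_
          rw [abs_mul, abs_of_nonneg (hp i)]
          exact mul_le_mul_of_nonneg_left (Real.abs_sin_le_one _) (hp i)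
      _ = 1 := by rw [← Finset.sum_mul, hs, one_mul]
  have h4 : (∑ i, p i * (1 - Real.cos (u i / 2 ^ j))) ^ 2 ≤ 2 ^ 2 := pow_le_pow_left₀ h1 h2 2
  have h5 : (∑ i, p i * Real.sin (u i / 2 ^ j)) ^ 2 ≤ 1 ^ 2 := by
    rw [← sq_abs]
    exact pow_le_pow_left₀ (abs_nonneg _) h3 2
  have h6 : (4 : ℝ) ^ j = 2 ^ j * 2 ^ j := by
    rw [← mul_pow]; norm_num
  have h7 : (0 : ℝ) < 2 ^ j := by positivity
  unfold ls
  rw [h6]
  have h8 : (2 : ℝ) ^ j * 2 ^ j * ((∑ i, p i * (1 - Real.cos (u i / 2 ^ j))) ^ 2 +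
      (∑ i, p i * Real.sin (u i / 2 ^ j)) ^ 2) ≤ 2 ^ j * 2 ^ j * 5 := by
    gcongr
    linarith
  have h9 : (2 : ℝ) ^ j * 2 ^ j * 5 ≤ m * 2 ^ j * 5 := by gcongr
  have h10 := sq_nonneg (∑ i, p i * u i)
  linarith

/-- **the deterministic lemma (d)** -/
theorem sum_ls_le (hp : ∀ i, 0 ≤ p i) (hs : ∑ i, p i = 1) (hm0 : 0 < m) (hmV : m ^ 2 ≤ V)
    (hm : ∑ i, p i * |u i| ≤ m) (hV : ∑ i, p i * u i ^ 2 ≤ V) (J : Finset ℕ) :
    ∑ j ∈ J, (ls p u j - (∑ i, p i * u i) ^ 2) ≤ 37 * m ^ 2 * (1 + Real.log (V / m ^ 2)) := by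
  classical
  have hV0 : 0 < V := (by positivity : 0 < m ^ 2).trans_le hmV
  have hlog : 0 ≤ Real.log (V / m ^ 2) :=
    Real.log_nonneg (by rw [one_le_div (by positivity)]; exact hmV)
  set a : ℕ → ℝ := fun j => ls p u j - (∑ i, p i * u i) ^ 2 with ha
  -- split
  set J1 := J.filter fun j => ((2 : ℝ) ^ j)⁻¹ ≤ m / V with hJ1
  set J' := J.filter fun j => ¬ ((2 : ℝ) ^ j)⁻¹ ≤ m / V with hJ'
  set J2 := J'.filter fun j => (2 : ℝ) ^ j ≤ m with hJ2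
  set J3 := J'.filter fun j => ¬ (2 : ℝ) ^ j ≤ m with hJ3
  have hsplit : ∑ j ∈ J, a j = ∑ j ∈ J1, a j + (∑ j ∈ J2, a j + ∑ j ∈ J3, a j) := by
    rw [hJ2, hJ3, Finset.sum_filter_add_sum_filter_not, hJ1, hJ',
      Finset.sum_filter_add_sum_filter_not]
  have b1 : ∑ j ∈ J1, a j ≤ 18 * m ^ 2 := by
    calc ∑ j ∈ J1, a j ≤ ∑ j ∈ J1, 9 * (m * V) * ((2 : ℝ) ^ j)⁻¹ := by
          refine Finset.sum_le_sum fun j hj => ?_
          exact ls_case_far hp hm0 hV0 hm hV (Finset.mem_filter.1 hj).2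
      _ = 9 * (m * V) * ∑ j ∈ J1, ((2 : ℝ) ^ j)⁻¹ := by rw [Finset.mul_sum]
      _ ≤ 9 * (m * V) * (2 * (m / V)) := by
          refine mul_le_mul_of_nonneg_left ?_ (by positivity)
          exact sum_half_pow_le J1 (by positivity) fun j hj => (Finset.mem_filter.1 hj).2
      _ = 18 * m ^ 2 := by field_simp; ring
  have b2 : ∑ j ∈ J2, a j ≤ 10 * m ^ 2 := by
    calc ∑ j ∈ J2, a j ≤ ∑ j ∈ J2, 5 * m * 2 ^ j := by
          refine Finset.sum_le_sum fun j hj => ?_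
          exact ls_case_near hp hs hm0 (Finset.mem_filter.1 hj).2
      _ = 5 * m * ∑ j ∈ J2, 2 ^ j := by rw [Finset.mul_sum]
      _ ≤ 5 * m * (2 * m) := by
          refine mul_le_mul_of_nonneg_left ?_ (by positivity)
          exact sum_two_pow_le J2 hm0.le fun j hj => (Finset.mem_filter.1 hj).2
      _ = 10 * m ^ 2 := by ring
  have b3 : ∑ j ∈ J3, a j ≤ 9 * m ^ 2 * (1 + 2 * Real.log (V / m ^ 2)) := by
    have hcard : (J3.card : ℝ) ≤ 1 + 2 * Real.log (V / m ^ 2) := by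
      have h1 := card_dyadic_le J3 (A := V / m) (B := m) hm0
        (by rw [le_div_iff₀ hm0]; nlinarith)
        (fun j hj => by
          have := (Finset.mem_filter.1 hj).2
          exact (not_le.1 this).le)
        (fun j hj => by
          have h2 := (Finset.mem_filter.1 (Finset.mem_filter.1 hj).1).2
          rw [not_le, div_lt_iff₀ hV0] at h2
          rw [le_div_iff₀ hm0]
          have h3 : (0 : ℝ) < 2 ^ j := by positivity
          have h4 : m * 2 ^ j < ((2 : ℝ) ^ j)⁻¹ * V * 2 ^ j := by gcongr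
          have h5 : ((2 : ℝ) ^ j)⁻¹ * V * 2 ^ j = V := by field_simp
          linarith)
      have h3 : V / m / m = V / m ^ 2 := by field_simp
      rwa [h3] at h1
    calc ∑ j ∈ J3, a j ≤ ∑ j ∈ J3, 9 * m ^ 2 :=
          Finset.sum_le_sum fun j _ => ls_case_mid hp hm0 hm hV j
      _ = J3.card * (9 * m ^ 2) := by rw [Finset.sum_const, nsmul_eq_mul]
      _ ≤ (1 + 2 * Real.log (V / m ^ 2)) * (9 * m ^ 2) := by gcongr
      _ = _ := by ring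
  rw [hsplit]
  have : 0 ≤ m ^ 2 * Real.log (V / m ^ 2) := by positivity
  nlinarith

end row

/-! ### the kernels -/

/-- `q j u = 2 · 4^j (1 - cos (u / 2^j))` -/
noncomputable def qk (j : ℕ) (u : ℝ) : ℝ := 2 * 4 ^ j * (1 - Real.cos (u / 2 ^ j))

theorem qk_nonneg (j : ℕ) (u : ℝ) : 0 ≤ qk j u := by
  have := Real.cos_le_one (u / 2 ^ j)
  unfold qk
  have : 0 ≤ 1 - Real.cos (u / 2 ^ j) := by linarith
  positivity

theorem sq_div_two_pow (j : ℕ) (u : ℝ) : 4 ^ j * (u / 2 ^ j) ^ 2 = u ^ 2 := by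
  have h6 : (4 : ℝ) ^ j = 2 ^ j * 2 ^ j := by
    rw [← mul_pow]; norm_num
  rw [h6]
  have : (2 : ℝ) ^ j ≠ 0 := by positivity
  field_simp

theorem qk_le_sq (j : ℕ) (u : ℝ) : qk j u ≤ u ^ 2 := by
  have h := one_sub_cos_le_sq (u / 2 ^ j)
  unfold qk
  calc 2 * 4 ^ j * (1 - Real.cos (u / 2 ^ j)) ≤ 2 * 4 ^ j * ((u / 2 ^ j) ^ 2 / 2) := by gcongr
    _ = 4 ^ j * (u / 2 ^ j) ^ 2 := by ring
    _ = u ^ 2 := sq_div_two_pow j u

theorem qk_le_const (j : ℕ) (u : ℝ) : qk j u ≤ 4 * 4 ^ j := by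
  have := Real.neg_one_le_cos (u / 2 ^ j)
  unfold qk
  have h : 1 - Real.cos (u / 2 ^ j) ≤ 2 := by linarith
  calc 2 * 4 ^ j * (1 - Real.cos (u / 2 ^ j)) ≤ 2 * 4 ^ j * 2 := by gcongr
    _ = _ := by ring

/-- `u² - q j u ≤ u⁴ / 4^j` -/
theorem sq_sub_qk_le (j : ℕ) (u : ℝ) : u ^ 2 - qk j u ≤ u ^ 4 / 4 ^ j := by
  set t := u / 2 ^ j with ht
  have h1 : 4 ^ j * t ^ 2 = u ^ 2 := sq_div_two_pow j u
  have h4j : (0 : ℝ) < 4 ^ j := by positivity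
  have h2 : 4 ^ j * t ^ 4 = u ^ 4 / 4 ^ j := by
    rw [eq_div_iff h4j.ne']
    calc 4 ^ j * t ^ 4 * 4 ^ j = (4 ^ j * t ^ 2) ^ 2 := by ring
      _ = u ^ 4 := by rw [h1]; ring
  rw [← h2, ← h1]
  unfold qk
  rw [← ht]
  have h3 : t ^ 2 - 2 * (1 - Real.cos t) ≤ t ^ 4 := by
    rcases le_total |t| 1 with h | h
    · have h5 := Real.cos_bound h
      have h6 := (abs_le.1 h5).2
      have h7 : |t| ^ 4 = t ^ 4 := by
        have : |t| ^ 4 = (|t| ^ 2) ^ 2 := by ring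
        rw [this, sq_abs]; ring
      rw [h7] at h6
      have h8 : 0 ≤ t ^ 4 := by positivity
      linarith
    · have h5 : 1 ≤ t ^ 2 := by
        rw [← sq_abs]; nlinarith
      have h6 : t ^ 2 ≤ t ^ 4 := by nlinarith [sq_nonneg (t ^ 2)]
      have h7 := Real.cos_le_one t
      linarith
  calc 4 ^ j * t ^ 2 - 2 * 4 ^ j * (1 - Real.cos t) = 4 ^ j * (t ^ 2 - 2 * (1 - Real.cos t)) := by
        ring
    _ ≤ 4 ^ j * t ^ 4 := by gcongr

/-- sum over four coordinates: the kernel `|u|² - q_j` is at least `|u|² / 2` at distance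
`≥ 6 · 2^j` -/
theorem half_le_sum_sub_qk (j : ℕ) (u : Fin 4 → ℝ) (h : 32 * 4 ^ j ≤ ∑ i, u i ^ 2) :
    (∑ i, u i ^ 2) / 2 ≤ ∑ i, (u i ^ 2 - qk j (u i)) := by
  rw [Finset.sum_sub_distrib]
  have h1 : ∑ i, qk j (u i) ≤ ∑ i : Fin 4, 4 * (4 : ℝ) ^ j :=
    Finset.sum_le_sum fun i _ => qk_le_const j _
  simp only [Finset.sum_const, Finset.card_univ, Fintype.card_fin, nsmul_eq_mul] at h1
  push_cast at h1
  linarith

/-! ### the test functions -/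

section test

variable {α : Type*}

/-- `2^j cos (g / 2^j)` -/
noncomputable def tc (j : ℕ) (g : α → ℝ) (x : α) : ℝ := 2 ^ j * Real.cos (g x / 2 ^ j)

/-- `2^j sin (g / 2^j)` -/
noncomputable def ts (j : ℕ) (g : α → ℝ) (x : α) : ℝ := 2 ^ j * Real.sin (g x / 2 ^ j)

theorem tc_ts_sq (j : ℕ) (g : α → ℝ) (x y : α) :
    (tc j g x - tc j g y) ^ 2 + (ts j g x - ts j g y) ^ 2 = qk j (g x - g y) := by
  unfold tc ts qk
  have h6 : (4 : ℝ) ^ j = 2 ^ j * 2 ^ j := by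
    rw [← mul_pow]; norm_num
  rw [h6, sub_div, Real.cos_sub]
  have h1 := Real.sin_sq_add_cos_sq (g x / 2 ^ j)
  have h2 := Real.sin_sq_add_cos_sq (g y / 2 ^ j)
  calc _ = (2 : ℝ) ^ j * 2 ^ j * ((Real.sin (g x / 2 ^ j) ^ 2 + Real.cos (g x / 2 ^ j) ^ 2) +
        (Real.sin (g y / 2 ^ j) ^ 2 + Real.cos (g y / 2 ^ j) ^ 2) -
        2 * (Real.cos (g x / 2 ^ j) * Real.cos (g y / 2 ^ j) +
          Real.sin (g x / 2 ^ j) * Real.sin (g y / 2 ^ j))) := by ring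
    _ = _ := by rw [h1, h2]; ring

theorem tc_ts_sq_le (j : ℕ) (g : α → ℝ) (x y : α) :
    (tc j g x - tc j g y) ^ 2 + (ts j g x - ts j g y) ^ 2 ≤ (g x - g y) ^ 2 :=
  (tc_ts_sq j g x y).trans_le (qk_le_sq j _)

theorem tc_lip (j : ℕ) (g : α → ℝ) (x y : α) : |tc j g x - tc j g y| ≤ |g x - g y| := by
  refine sq_le_sq.1 ?_
  have := tc_ts_sq_le j g x y
  nlinarith [sq_nonneg (ts j g x - ts j g y)]

theorem ts_lip (j : ℕ) (g : α → ℝ) (x y : α) : |ts j g x - ts j g y| ≤ |g x - g y| := by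
  refine sq_le_sq.1 ?_
  have := tc_ts_sq_le j g x y
  nlinarith [sq_nonneg (tc j g x - tc j g y)]

/-- the loss of the family `(tc j g, ts j g)` at a row `v` with weights `p` -/
theorem loss_tc_ts [Fintype α] {p : α → ℝ} (hs : ∑ y, p y = 1) (j : ℕ) (g : α → ℝ) (v : α) :
    (∑ y, p y * tc j g y - tc j g v) ^ 2 + (∑ y, p y * ts j g y - ts j g v) ^ 2 =
      ls p (fun y => g y - g v) j := by
  unfold ls tc ts
  set c := Real.cos (g v / 2 ^ j) with hc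
  set s := Real.sin (g v / 2 ^ j) with hsn
  have hcs : s ^ 2 + c ^ 2 = 1 := Real.sin_sq_add_cos_sq _
  set C := ∑ y, p y * Real.cos (g y / 2 ^ j) with hC
  set S := ∑ y, p y * Real.sin (g y / 2 ^ j) with hS
  have e1 : ∑ y, p y * (2 ^ j * Real.cos (g y / 2 ^ j)) = 2 ^ j * C := by
    rw [hC, Finset.mul_sum]; exact Finset.sum_congr rfl fun y _ => by ring
  have e2 : ∑ y, p y * (2 ^ j * Real.sin (g y / 2 ^ j)) = 2 ^ j * S := by
    rw [hS, Finset.mul_sum]; exact Finset.sum_congr rfl fun y _ => by ring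
  have e3 : ∑ y, p y * (1 - Real.cos ((g y - g v) / 2 ^ j)) = 1 - (C * c + S * s) := by
    calc ∑ y, p y * (1 - Real.cos ((g y - g v) / 2 ^ j)) =
        ∑ y, (p y - (p y * Real.cos (g y / 2 ^ j) * c + p y * Real.sin (g y / 2 ^ j) * s)) := by
          refine Finset.sum_congr rfl fun y _ => ?_
          rw [sub_div, Real.cos_sub]; ring
      _ = 1 - (C * c + S * s) := by
          rw [Finset.sum_sub_distrib, Finset.sum_add_distrib, hs, ← Finset.sum_mul,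
            ← Finset.sum_mul]
  have e4 : ∑ y, p y * Real.sin ((g y - g v) / 2 ^ j) = S * c - C * s := by
    calc ∑ y, p y * Real.sin ((g y - g v) / 2 ^ j) =
        ∑ y, (p y * Real.sin (g y / 2 ^ j) * c - p y * Real.cos (g y / 2 ^ j) * s) := by
          refine Finset.sum_congr rfl fun y _ => ?_
          rw [sub_div, Real.sin_sub]; ring
      _ = S * c - C * s := by
          rw [Finset.sum_sub_distrib, ← Finset.sum_mul, ← Finset.sum_mul]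
  have h6 : (4 : ℝ) ^ j = 2 ^ j * 2 ^ j := by
    rw [← mul_pow]; norm_num
  rw [e1, e2, e3, e4, h6]
  calc (2 ^ j * C - 2 ^ j * c) ^ 2 + (2 ^ j * S - 2 ^ j * s) ^ 2
      = (2 : ℝ) ^ j * 2 ^ j * (C ^ 2 + S ^ 2 + (s ^ 2 + c ^ 2) - 2 * (C * c + S * s)) := by ring
    _ = 2 ^ j * 2 ^ j * (C ^ 2 * (s ^ 2 + c ^ 2) + S ^ 2 * (s ^ 2 + c ^ 2) + 1 -
          2 * (C * c + S * s)) := by rw [hcs]; ring
    _ = _ := by ring

end test

end P365H219
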