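import Vale.Agent.P365.V4.FlowLoss548b
import Vale.Agent.P365.H219.Trig

/-!
# P365-T2, T-L: the logarithmic energy through finitely many Lipschitz test functions

`L (τ) = ∑_{j ∈ J} (Φ_a - Φ_{F_j})`, `F_j = (2^j cos (a_k / 2^j), 2^j sin (a_k / 2^j))`.

* `row_le`: at one row, the sum over `j` of the excess losses is at most
  `74 #κ (mobile content + φ(θ) content)`;
* `Gr_le`: the same for the averages, `Gr = ∑_j (LossG (F_j) - LossG a)`;
* `hasDerivAt_L`: `L' = Gr +` law errors;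
* `L_ge`, `L_le`: boundary values.
-/

set_option linter.all false

namespace P365H219

open Finset MeasureTheory Matrix Filter Topology
open P365L P365O P365T1 Vale.Agent.P365.J376

section row

variable {ι κ : Type*} [Fintype ι] [DecidableEq ι] [Fintype κ]

/-- squared distance `∑_k (a_k x - a_k y)²` -/
noncomputable def d2 (a : κ → ι → ℝ) (x y : ι) : ℝ := ∑ k, (a k x - a k y) ^ 2

/-- `l_x = E_{P_x} d(·, x)` -/
noncomputable def l1 (A : Matrix ι ι ℝ) (W : ι → ℂ) (a : κ → ι → ℝ) (x : ι) : ℝ :=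
  ∑ y, PP A W x y * Real.sqrt (d2 a y x)

/-- `V_x = E_{P_x} d(·, x)²` -/
noncomputable def v2 (A : Matrix ι ι ℝ) (W : ι → ℂ) (a : κ → ι → ℝ) (x : ι) : ℝ :=
  ∑ y, PP A W x y * d2 a y x

open Classical in
/-- content `m_x V_x` of the site `x` if it is mobile (`θ V_x ≤ l_x²`) -/
noncomputable def mobc (A : Matrix ι ι ℝ) (W : ι → ℂ) (a : κ → ι → ℝ) (θ : ℝ) (x : ι) : ℝ :=
  if θ * v2 A W a x ≤ l1 A W a x ^ 2 then mm A W x * v2 A W a x else 0

/-- the trigonometric family of index `j` -/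
noncomputable def Fj (a : κ → ι → ℝ) (j : ℕ) (q : κ × Bool) : ι → ℝ :=
  if q.2 then tc j (a q.1) else ts j (a q.1)

theorem sum_Fj (a : κ → ι → ℝ) (j : ℕ) (G : (ι → ℝ) → ℝ) :
    ∑ q, G (Fj a j q) = ∑ k, (G (tc j (a k)) + G (ts j (a k))) := by
  rw [Fintype.sum_prod_type]
  refine Finset.sum_congr rfl fun k _ => ?_
  rw [Fintype.sum_bool]
  rfl

theorem d2_nonneg (a : κ → ι → ℝ) (x y : ι) : 0 ≤ d2 a x y :=
  Finset.sum_nonneg fun k _ => sq_nonneg _

variable {A : Matrix ι ι ℝ} {W : ι → ℂ}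

theorem v2_nonneg (hA : A.IsSymm) (hW : ∀ x, (W x).im < 0) (a : κ → ι → ℝ) (x : ι) :
    0 ≤ v2 A W a x :=
  Finset.sum_nonneg fun y _ => mul_nonneg (PP_nonneg hA hW x y) (d2_nonneg a y x)

theorem l1_nonneg (hA : A.IsSymm) (hW : ∀ x, (W x).im < 0) (a : κ → ι → ℝ) (x : ι) :
    0 ≤ l1 A W a x :=
  Finset.sum_nonneg fun y _ => mul_nonneg (PP_nonneg hA hW x y) (Real.sqrt_nonneg _)

/-- `l_x² ≤ V_x` -/
theorem l1_sq_le (hA : A.IsSymm) (hW : ∀ x, (W x).im < 0) (a : κ → ι → ℝ) (x : ι) :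
    l1 A W a x ^ 2 ≤ v2 A W a x := by
  have h := Finset.sum_mul_sq_le_sq_mul_sq Finset.univ (fun y => Real.sqrt (PP A W x y))
    (fun y => Real.sqrt (PP A W x y) * Real.sqrt (d2 a y x))
  have h1 : ∀ y, Real.sqrt (PP A W x y) * (Real.sqrt (PP A W x y) * Real.sqrt (d2 a y x)) =
      PP A W x y * Real.sqrt (d2 a y x) := fun y => by
    rw [← mul_assoc, Real.mul_self_sqrt (PP_nonneg hA hW x y)]
  have h2 : ∀ y, Real.sqrt (PP A W x y) ^ 2 = PP A W x y := fun y =>
    Real.sq_sqrt (PP_nonneg hA hW x y)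
  have h3 : ∀ y, (Real.sqrt (PP A W x y) * Real.sqrt (d2 a y x)) ^ 2 =
      PP A W x y * d2 a y x := fun y => by
    rw [mul_pow, h2, Real.sq_sqrt (d2_nonneg a y x)]
  simp only [h1, h2, h3, PP_sum hA hW, one_mul] at h
  exact h

/-- `m_x V_x = ∑_k M_x(a_k)` -/
theorem mm_mul_v2 (hA : A.IsSymm) (hW : ∀ x, (W x).im < 0) (a : κ → ι → ℝ) (x : ι) :
    mm A W x * v2 A W a x = ∑ k, Mf A W (a k) x := by
  have hm := (mm_pos hA hW x).ne'
  unfold v2 Mf d2 PP
  rw [Finset.sum_comm, Finset.mul_sum]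
  refine Finset.sum_congr rfl fun y _ => ?_
  rw [← Finset.mul_sum]
  field_simp

theorem mobc_nonneg (hA : A.IsSymm) (hW : ∀ x, (W x).im < 0) (a : κ → ι → ℝ) (θ : ℝ) (x : ι) :
    0 ≤ mobc A W a θ x := by
  unfold mobc
  split_ifs
  · exact mul_nonneg (mm_pos hA hW x).le (v2_nonneg hA hW a x)
  · exact le_rfl

theorem mobc_le (hA : A.IsSymm) (hW : ∀ x, (W x).im < 0) (a : κ → ι → ℝ) (θ : ℝ) (x : ι) :
    mobc A W a θ x ≤ ∑ k, Mf A W (a k) x := by
  rw [← mm_mul_v2 hA hW]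
  unfold mobc
  split_ifs
  · exact le_rfl
  · exact mul_nonneg (mm_pos hA hW x).le (v2_nonneg hA hW a x)

/-- `φ(θ) = θ (1 + log (1/θ))` -/
noncomputable def phiF (θ : ℝ) : ℝ := θ * (1 + Real.log (1 / θ))

theorem phiF_mono {s t : ℝ} (hs : 0 < s) (hst : s ≤ t) (ht : t ≤ 1) : phiF s ≤ phiF t := by
  have ht0 : 0 < t := hs.trans_le hst
  unfold phiF
  have h1 : Real.log (1 / s) = Real.log (1 / t) + Real.log (t / s) := by
    rw [← Real.log_mul (by positivity) (by positivity)]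
    congr 1
    field_simp
  have h2 : Real.log (t / s) ≤ t / s - 1 := Real.log_le_sub_one_of_pos (by positivity)
  have h3 : 0 ≤ Real.log (1 / t) := Real.log_nonneg (by rwa [one_le_div ht0])
  rw [h1]
  have h4 : s * Real.log (t / s) ≤ s * (t / s - 1) := mul_le_mul_of_nonneg_left h2 hs.le
  have h5 : s * (t / s - 1) = t - s := by field_simp
  have h6 : 0 ≤ (t - s) * Real.log (1 / t) := mul_nonneg (by linarith) h3
  nlinarith

theorem phiF_le_one {t : ℝ} (ht0 : 0 < t) (ht : t ≤ 1) : phiF t ≤ 1 := by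
  have := phiF_mono ht0 ht le_rfl
  unfold phiF at this ⊢
  simpa using this

theorem phiF_pos {t : ℝ} (ht0 : 0 < t) (ht : t ≤ 1) : 0 < phiF t := by
  have h3 : 0 ≤ Real.log (1 / t) := Real.log_nonneg (by rwa [one_le_div ht0])
  unfold phiF
  positivity

/-- **the row inequality** -/
theorem row_le (hA : A.IsSymm) (hW : ∀ x, (W x).im < 0) (a : κ → ι → ℝ) (J : Finset ℕ)
    {θ : ℝ} (hθ : 0 < θ) (hθ1 : θ ≤ 1) (x : ι) :
    ∑ j ∈ J, (∑ q, lossS A W (Fj a j q) x - ∑ k, lossS A W (a k) x) ≤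
      74 * Fintype.card κ * (mobc A W a θ x + phiF θ * ∑ k, Mf A W (a k) x) := by
  classical
  have hm := mm_pos hA hW x
  have hP0 := PP_nonneg hA hW x
  have hP1 := PP_sum hA hW x
  set l := l1 A W a x with hl
  set V := v2 A W a x with hV
  have hl0 : 0 ≤ l := l1_nonneg hA hW a x
  have hV0 : 0 ≤ V := v2_nonneg hA hW a x
  have hlV : l ^ 2 ≤ V := l1_sq_le hA hW a x
  have hMf : ∑ k, Mf A W (a k) x = mm A W x * V := (mm_mul_v2 hA hW a x).symm
  -- each term
  have hterm : ∀ j, ∑ q, lossS A W (Fj a j q) x - ∑ k, lossS A W (a k) x =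
      2 * mm A W x * ∑ k, (ls (PP A W x) (fun y => a k y - a k x) j -
        (∑ y, PP A W x y * (a k y - a k x)) ^ 2) := by
    intro j
    rw [sum_Fj a j (fun g => lossS A W g x), ← Finset.sum_sub_distrib, Finset.mul_sum]
    refine Finset.sum_congr rfl fun k _ => ?_
    have h1 := loss_tc_ts hP1 j (a k) x
    have h2 : ∑ y, PP A W x y * (a k y - a k x) = muf A W (a k) x := by
      unfold muf
      calc ∑ y, PP A W x y * (a k y - a k x) =
          ∑ y, (PP A W x y * a k y - PP A W x y * a k x) :=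
            Finset.sum_congr rfl fun y _ => by ring
        _ = _ := by rw [Finset.sum_sub_distrib, ← Finset.sum_mul, hP1, one_mul]
    rw [← h1, h2]
    unfold lossS muf
    ring
  simp only [hterm]
  rw [← Finset.mul_sum, Finset.sum_comm]
  -- bounds of the moments of one coordinate
  have hak : ∀ k y, |a k y - a k x| ≤ Real.sqrt (d2 a y x) := by
    intro k y
    rw [← Real.sqrt_sq_eq_abs]
    exact Real.sqrt_le_sqrt (Finset.single_le_sum (f := fun k => (a k y - a k x) ^ 2)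
      (fun k _ => sq_nonneg _) (Finset.mem_univ k))
  have hak2 : ∀ k y, (a k y - a k x) ^ 2 ≤ d2 a y x := fun k y =>
    Finset.single_le_sum (f := fun k => (a k y - a k x) ^ 2)
      (fun k _ => sq_nonneg _) (Finset.mem_univ k)
  have hmk : ∀ k, ∑ y, PP A W x y * |a k y - a k x| ≤ l := fun k =>
    Finset.sum_le_sum fun y _ => mul_le_mul_of_nonneg_left (hak k y) (hP0 y)
  have hVk : ∀ k, ∑ y, PP A W x y * (a k y - a k x) ^ 2 ≤ V := fun k =>
    Finset.sum_le_sum fun y _ => mul_le_mul_of_nonneg_left (hak2 k y) (hP0 y)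
  rcases hl0.eq_or_lt with hl00 | hl00
  · -- `l = 0`: everything vanishes
    have hz : ∀ k y, PP A W x y * |a k y - a k x| = 0 := by
      intro k y
      have h1 : ∑ y, PP A W x y * |a k y - a k x| = 0 :=
        le_antisymm ((hmk k).trans hl00.symm.le)
          (Finset.sum_nonneg fun y _ => mul_nonneg (hP0 y) (abs_nonneg _))
      exact (Finset.sum_eq_zero_iff_of_nonneg
        (fun y _ => mul_nonneg (hP0 y) (abs_nonneg _))).1 h1 y (Finset.mem_univ y)
    have hzz : ∀ k j, ls (PP A W x) (fun y => a k y - a k x) j -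
        (∑ y, PP A W x y * (a k y - a k x)) ^ 2 = 0 := by
      intro k j
      have e0 : ∀ y, PP A W x y = 0 ∨ a k y - a k x = 0 := fun y => by
        rcases mul_eq_zero.1 (hz k y) with h | h
        · exact Or.inl h
        · exact Or.inr (abs_eq_zero.1 h)
      unfold ls
      have e1 : ∑ y, PP A W x y * (1 - Real.cos ((a k y - a k x) / 2 ^ j)) = 0 :=
        Finset.sum_eq_zero fun y _ => by
          rcases e0 y with h | h
          · rw [h, zero_mul]
          · rw [h]; simp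
      have e2 : ∑ y, PP A W x y * Real.sin ((a k y - a k x) / 2 ^ j) = 0 :=
        Finset.sum_eq_zero fun y _ => by
          rcases e0 y with h | h
          · rw [h, zero_mul]
          · rw [h]; simp
      have e3 : ∑ y, PP A W x y * (a k y - a k x) = 0 :=
        Finset.sum_eq_zero fun y _ => by
          rcases e0 y with h | h
          · rw [h, zero_mul]
          · rw [h, mul_zero]
      rw [e1, e2, e3]
      ring
    simp only [hzz, Finset.sum_const_zero, mul_zero]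
    have h1 := mobc_nonneg hA hW a θ x
    have h2 := (phiF_pos hθ hθ1).le
    have h3 : 0 ≤ ∑ k, Mf A W (a k) x := Finset.sum_nonneg fun k _ => Mf_nonneg hW _ _
    positivity
  · have hk : ∀ k, ∑ j ∈ J, (ls (PP A W x) (fun y => a k y - a k x) j -
        (∑ y, PP A W x y * (a k y - a k x)) ^ 2) ≤
        37 * l ^ 2 * (1 + Real.log (V / l ^ 2)) := fun k =>
      sum_ls_le hP0 hP1 hl00 hlV (hmk k) (hVk k) J
    have hV1 : 0 < V := (by positivity : 0 < l ^ 2).trans_le hlV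
    set p : ℝ := l ^ 2 / V with hp
    have hp0 : 0 < p := by positivity
    have hp1 : p ≤ 1 := by rw [hp, div_le_one hV1]; exact hlV
    have hphi : l ^ 2 * (1 + Real.log (V / l ^ 2)) = V * phiF p := by
      unfold phiF
      have e1 : 1 / p = V / l ^ 2 := by rw [hp, one_div, inv_div]
      rw [e1, hp]
      field_simp
    have hrow : mm A W x * (V * phiF p) ≤
        mobc A W a θ x + phiF θ * ∑ k, Mf A W (a k) x := by
      rw [hMf]
      rcases le_total θ p with h | h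
      · have e1 : mobc A W a θ x = mm A W x * V := by
          unfold mobc
          rw [if_pos]
          rw [hp, le_div_iff₀ hV1] at h
          exact h
        have e2 := phiF_le_one hp0 hp1
        have e3 : 0 ≤ phiF θ * (mm A W x * V) :=
          mul_nonneg (phiF_pos hθ hθ1).le (mul_nonneg hm.le hV0)
        have e4 : mm A W x * (V * phiF p) ≤ mm A W x * (V * 1) := by gcongr
        rw [e1]
        linarith
      · have e1 := mobc_nonneg hA hW a θ x
        have e2 := phiF_mono hp0 h hθ1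
        have e3 : mm A W x * (V * phiF p) ≤ mm A W x * (V * phiF θ) := by gcongr
        linarith
    calc 2 * mm A W x * ∑ k, ∑ j ∈ J, (ls (PP A W x) (fun y => a k y - a k x) j -
          (∑ y, PP A W x y * (a k y - a k x)) ^ 2)
        ≤ 2 * mm A W x * ∑ _k : κ, 37 * l ^ 2 * (1 + Real.log (V / l ^ 2)) := by
          refine mul_le_mul_of_nonneg_left (Finset.sum_le_sum fun k _ => hk k) (by positivity)
      _ = 74 * Fintype.card κ * (mm A W x * (l ^ 2 * (1 + Real.log (V / l ^ 2)))) := by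
          rw [Finset.sum_const, Finset.card_univ, nsmul_eq_mul]
          ring
      _ = 74 * Fintype.card κ * (mm A W x * (V * phiF p)) := by rw [hphi]
      _ ≤ _ := mul_le_mul_of_nonneg_left hrow (by positivity)

end row

/-! ### averages -/

section avg

variable {ι : Type*} [Fintype ι] [DecidableEq ι] (A : Matrix ι ι ℝ)
  {Λ : Type*} [Fintype Λ] (p : Λ → ℝ) (ν : Λ → Measure ℝ) (E : ℝ)
  {κ : Type*} [Fintype κ] (a : κ → ι → ℝ)

/-- average of a site functional, in direction `w` -/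
noncomputable def SG (e w : (ι → Λ) → ι → ℝ) (G : (ι → ℂ) → ι → ℝ) : ℝ :=
  ∑ l : ι → Λ, (∏ x, p (l x)) * ∑ x, w l x * Ex (fun x => ν (l x)) E (e l) (fun W => G W x)

/-- mobile content -/
noncomputable def MobG (e w : (ι → Λ) → ι → ℝ) (θ : ℝ) : ℝ :=
  SG p ν E e w (fun W x => mobc A W a θ x)

/-- content in direction `w` -/
noncomputable def ContG (e w : (ι → Λ) → ι → ℝ) : ℝ :=
  SG p ν E e w (fun W x => ∑ k, Mf A W (a k) x)

/-- the growth functional -/
noncomputable def GrG (J : Finset ℕ) (e w : (ι → Λ) → ι → ℝ) : ℝ :=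
  ∑ j ∈ J, (LossG A p ν E (Fj a j) e w - LossG A p ν E a e w)

/-- the logarithmic energy -/
noncomputable def LG (J : Finset ℕ) (e : (ι → Λ) → ι → ℝ) : ℝ :=
  ∑ j ∈ J, (PhiG A p ν E a e - PhiG A p ν E (Fj a j) e)

variable {A p ν E a}

theorem SG_mono (hp : ∀ k, 0 ≤ p k) {e w : (ι → Λ) → ι → ℝ} (hw0 : ∀ l x, 0 ≤ w l x)
    {G H : (ι → ℂ) → ι → ℝ}
    (hG : ∀ l x, Integrable (fun v => G (WV E (e l) v) x) (Measure.pi fun x => ν (l x)))
    (hH : ∀ l x, Integrable (fun v => H (WV E (e l) v) x) (Measure.pi fun x => ν (l x)))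
    (h : ∀ l v x, G (WV E (e l) v) x ≤ H (WV E (e l) v) x) :
    SG p ν E e w G ≤ SG p ν E e w H := by
  unfold SG Ex
  refine Finset.sum_le_sum fun l _ => mul_le_mul_of_nonneg_left ?_
    (Finset.prod_nonneg fun x _ => hp _)
  exact Finset.sum_le_sum fun x _ => mul_le_mul_of_nonneg_left
    (integral_mono (hG l x) (hH l x) fun v => h l v x) (hw0 l x)

theorem WV_im0 (E : ℝ) (e v : ι → ℝ) (x : ι) : (WV E e v x).im = -(e x) := by
  simp [WV]

theorem measurable_PP_WV (E : ℝ) (e : ι → ℝ) (x y : ι) :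
    Measurable fun v : ι → ℝ => PP A (WV E e v) x y := by
  have h0 : ∀ v : ι → ℝ, ∀ a, (WV E e v a).im = -(e a) := fun v a => WV_im0 E e v a
  unfold PP
  simp only [h0]
  have hG : ∀ x y : ι, Measurable fun v : ι → ℝ => Gr A (WV E e v) x y := fun x y =>
    measurable_Gr_Wp (a := fun (v : ι → ℝ) x => v x - E) (h := fun _ => e)
      (fun x => measurable_coord_sub E x) (fun x => measurable_const) x y
  refine Measurable.div ?_ ?_
  · unfold KK
    exact ((hG x y).norm.pow_const 2).const_mul _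
  · unfold mm
    exact Complex.measurable_im.comp (hG x x)

theorem measurable_v2_WV (E : ℝ) (e : ι → ℝ) (x : ι) :
    Measurable fun v : ι → ℝ => v2 A (WV E e v) a x :=
  Finset.measurable_sum _ fun y _ => (measurable_PP_WV E e x y).mul_const _

theorem measurable_l1_WV (E : ℝ) (e : ι → ℝ) (x : ι) :
    Measurable fun v : ι → ℝ => l1 A (WV E e v) a x :=
  Finset.measurable_sum _ fun y _ => (measurable_PP_WV E e x y).mul_const _

theorem measurable_mm_WV (E : ℝ) (e : ι → ℝ) (x : ι) :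
    Measurable fun v : ι → ℝ => mm A (WV E e v) x := by
  unfold mm
  exact Complex.measurable_im.comp
    (measurable_Gr_Wp (a := fun (v : ι → ℝ) x => v x - E) (h := fun _ => e)
      (fun x => measurable_coord_sub E x) (fun x => measurable_const) x x)

theorem measurable_mobc_WV (E : ℝ) (e : ι → ℝ) (θ : ℝ) (x : ι) :
    Measurable fun v : ι → ℝ => mobc A (WV E e v) a θ x := by
  unfold mobc
  refine Measurable.ite ?_ ((measurable_mm_WV E e x).mul (measurable_v2_WV E e x))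
    measurable_const
  exact measurableSet_le ((measurable_v2_WV E e x).const_mul θ)
    ((measurable_l1_WV E e x).pow_const 2)

theorem integrable_sum_Mf (hA : A.IsSymm) (m : Measure (ι → ℝ)) [IsFiniteMeasure m] (E : ℝ)
    {e : ι → ℝ} (he : ∀ x, 0 < e x) (a : κ → ι → ℝ) (x : ι) :
    Integrable (fun v => ∑ k, Mf A (WV E e v) (a k) x) m :=
  integrable_finset_sum _ fun k _ => integrable_Mf hA m E he (a k) x

theorem integrable_mobc (hA : A.IsSymm) (m : Measure (ι → ℝ)) [IsFiniteMeasure m] (E : ℝ)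
    {e : ι → ℝ} (he : ∀ x, 0 < e x) (a : κ → ι → ℝ) (θ : ℝ) (x : ι) :
    Integrable (fun v => mobc A (WV E e v) a θ x) m := by
  refine Integrable.mono' (integrable_sum_Mf hA m E he a x)
    (measurable_mobc_WV E e θ x).aestronglyMeasurable (Eventually.of_forall fun v => ?_)
  rw [Real.norm_eq_abs, abs_of_nonneg (mobc_nonneg hA (WV_neg he v) a θ x)]
  exact mobc_le hA (WV_neg he v) a θ x

theorem GrG_eq_SG (hA : A.IsSymm) [∀ k, IsProbabilityMeasure (ν k)] (J : Finset ℕ)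
    {e w : (ι → Λ) → ι → ℝ} (he : ∀ l x, 0 < e l x) :
    GrG A p ν E a J e w = SG p ν E e w (fun W x =>
      ∑ j ∈ J, (∑ q, lossS A W (Fj a j q) x - ∑ k, lossS A W (a k) x)) := by
  have hi : ∀ l x (g : ι → ℝ), Integrable (fun v => lossS A (WV E (e l) v) g x)
      (Measure.pi fun x => ν (l x)) := fun l x g => integrable_lossS hA _ E (he l) g x
  unfold GrG SG LossG Ex
  have h1 : ∀ l x, ∫ v, (∑ j ∈ J, (∑ q, lossS A (WV E (e l) v) (Fj a j q) x -
      ∑ k, lossS A (WV E (e l) v) (a k) x)) ∂(Measure.pi fun x => ν (l x)) =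
      ∑ j ∈ J, (∑ q, ∫ v, lossS A (WV E (e l) v) (Fj a j q) x ∂(Measure.pi fun x => ν (l x)) -
        ∑ k, ∫ v, lossS A (WV E (e l) v) (a k) x ∂(Measure.pi fun x => ν (l x))) := by
    intro l x
    rw [integral_finset_sum]
    · refine Finset.sum_congr rfl fun j _ => ?_
      rw [integral_sub, integral_finset_sum, integral_finset_sum]
      · exact fun k _ => hi l x (a k)
      · exact fun q _ => hi l x (Fj a j q)
      · exact integrable_finset_sum _ fun q _ => hi l x (Fj a j q)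
      · exact integrable_finset_sum _ fun k _ => hi l x (a k)
    · intro j _
      exact (integrable_finset_sum _ fun q _ => hi l x (Fj a j q)).sub
        (integrable_finset_sum _ fun k _ => hi l x (a k))
  simp only [h1]
  simp only [← Finset.sum_sub_distrib]
  rw [Finset.sum_comm]
  refine Finset.sum_congr rfl fun l _ => ?_
  simp only [← mul_sub, ← Finset.mul_sum, ← Finset.sum_sub_distrib]
  congr 1
  rw [Finset.sum_comm]
  refine Finset.sum_congr rfl fun x _ => ?_
  rw [← Finset.mul_sum]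

/-- **the growth rate is paid by the mobile content** -/
theorem GrG_le (hA : A.IsSymm) [∀ k, IsProbabilityMeasure (ν k)] (hp : ∀ k, 0 ≤ p k)
    (J : Finset ℕ) {e w : (ι → Λ) → ι → ℝ} (he : ∀ l x, 0 < e l x) (hw0 : ∀ l x, 0 ≤ w l x)
    {θ : ℝ} (hθ : 0 < θ) (hθ1 : θ ≤ 1) :
    GrG A p ν E a J e w ≤
      74 * Fintype.card κ * (MobG A p ν E a e w θ + phiF θ * ContG A p ν E a e w) := by
  rw [GrG_eq_SG hA J he]
  have hm : ∀ l x, Integrable (fun v => mobc A (WV E (e l) v) a θ x)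
      (Measure.pi fun x => ν (l x)) := fun l x => integrable_mobc hA _ E (he l) a θ x
  have hc : ∀ l x, Integrable (fun v => ∑ k, Mf A (WV E (e l) v) (a k) x)
      (Measure.pi fun x => ν (l x)) := fun l x => integrable_sum_Mf hA _ E (he l) a x
  have hls : ∀ l x (g : ι → ℝ), Integrable (fun v => lossS A (WV E (e l) v) g x)
      (Measure.pi fun x => ν (l x)) := fun l x g => integrable_lossS hA _ E (he l) g x
  refine (SG_mono hp hw0 (H := fun W x => 74 * Fintype.card κ *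
    (mobc A W a θ x + phiF θ * ∑ k, Mf A W (a k) x)) ?_ ?_ ?_).trans (le_of_eq ?_)
  · intro l x
    exact integrable_finset_sum _ fun j _ =>
      (integrable_finset_sum _ fun q _ => hls l x (Fj a j q)).sub
        (integrable_finset_sum _ fun k _ => hls l x (a k))
  · intro l x
    exact ((hm l x).add ((hc l x).const_mul _)).const_mul _
  · intro l v x
    exact row_le hA (WV_neg (he l) v) a J hθ hθ1 x
  · unfold MobG ContG SG Ex
    have h1 : ∀ l x, ∫ v, 74 * (Fintype.card κ : ℝ) * (mobc A (WV E (e l) v) a θ x +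
        phiF θ * ∑ k, Mf A (WV E (e l) v) (a k) x) ∂(Measure.pi fun x => ν (l x)) =
        74 * Fintype.card κ * (∫ v, mobc A (WV E (e l) v) a θ x ∂(Measure.pi fun x => ν (l x)) +
          phiF θ * ∫ v, ∑ k, Mf A (WV E (e l) v) (a k) x ∂(Measure.pi fun x => ν (l x))) := by
      intro l x
      rw [integral_const_mul, integral_add (hm l x) ((hc l x).const_mul _), integral_const_mul]
    simp only [h1]
    have h2 : ∀ l : ι → Λ, (∏ x, p (l x)) * ∑ x, w l x * (74 * (Fintype.card κ : ℝ) *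
        (∫ v, mobc A (WV E (e l) v) a θ x ∂(Measure.pi fun x => ν (l x)) +
          phiF θ * ∫ v, ∑ k, Mf A (WV E (e l) v) (a k) x ∂(Measure.pi fun x => ν (l x)))) =
        74 * (Fintype.card κ : ℝ) * ((∏ x, p (l x)) * ∑ x, w l x *
          ∫ v, mobc A (WV E (e l) v) a θ x ∂(Measure.pi fun x => ν (l x))) +
        74 * (Fintype.card κ : ℝ) * phiF θ * ((∏ x, p (l x)) * ∑ x, w l x *
          ∫ v, ∑ k, Mf A (WV E (e l) v) (a k) x ∂(Measure.pi fun x => ν (l x))) := by
      intro l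
      rw [mul_left_comm _ (∏ x, p (l x)), mul_left_comm _ (∏ x, p (l x)), ← mul_add]
      congr 1
      rw [Finset.mul_sum, Finset.mul_sum, ← Finset.sum_add_distrib]
      exact Finset.sum_congr rfl fun x _ => by ring
    simp only [h2]
    rw [Finset.sum_add_distrib, ← Finset.mul_sum, ← Finset.mul_sum]
    ring

theorem ContG_eq (hA : A.IsSymm) [∀ k, IsProbabilityMeasure (ν k)]
    {e w : (ι → Λ) → ι → ℝ} (he : ∀ l x, 0 < e l x) :
    ContG A p ν E a e w = ∑ l : ι → Λ, (∏ x, p (l x)) *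
      ∑ x, w l x * ∑ k, Ex (fun x => ν (l x)) E (e l) (fun W => Mf A W (a k) x) := by
  unfold ContG SG Ex
  refine Finset.sum_congr rfl fun l _ => ?_
  congr 1
  refine Finset.sum_congr rfl fun x _ => ?_
  rw [integral_finset_sum _ fun k _ => integrable_Mf hA _ E (he l) (a k) x]

/-- the content in a direction `w ≤ e` is at most the energy -/
theorem ContG_le (hA : A.IsSymm) [∀ k, IsProbabilityMeasure (ν k)] (hp : ∀ k, 0 ≤ p k)
    {e w : (ι → Λ) → ι → ℝ} (he : ∀ l x, 0 < e l x) (hwe : ∀ l x, w l x ≤ e l x) :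
    ContG A p ν E a e w ≤ PhiG A p ν E a e := by
  rw [ContG_eq hA he, PhiG_eq_sum_Mf hA he]
  refine Finset.sum_le_sum fun l _ => mul_le_mul_of_nonneg_left ?_
    (Finset.prod_nonneg fun x _ => hp _)
  exact Finset.sum_le_sum fun x _ => mul_le_mul_of_nonneg_right (hwe l x)
    (Finset.sum_nonneg fun k _ => Ex_nonneg _ _ _ fun v => Mf_nonneg (WV_neg (he l) v) _ _)

theorem MobG_nonneg (hA : A.IsSymm) (hp : ∀ k, 0 ≤ p k)
    {e w : (ι → Λ) → ι → ℝ} (he : ∀ l x, 0 < e l x) (hw0 : ∀ l x, 0 ≤ w l x) (θ : ℝ) :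
    0 ≤ MobG A p ν E a e w θ :=
  Finset.sum_nonneg fun l _ => mul_nonneg (Finset.prod_nonneg fun x _ => hp _)
    (Finset.sum_nonneg fun x _ => mul_nonneg (hw0 l x)
      (Ex_nonneg _ _ _ fun v => mobc_nonneg hA (WV_neg (he l) v) _ _ _))

theorem MobG_le (hA : A.IsSymm) [∀ k, IsProbabilityMeasure (ν k)] (hp : ∀ k, 0 ≤ p k)
    {e w : (ι → Λ) → ι → ℝ} (he : ∀ l x, 0 < e l x) (hw0 : ∀ l x, 0 ≤ w l x) (θ : ℝ) :
    MobG A p ν E a e w θ ≤ ContG A p ν E a e w :=
  SG_mono hp hw0 (fun l x => integrable_mobc hA _ E (he l) a θ x)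
    (fun l x => integrable_sum_Mf hA _ E (he l) a x)
    fun l v x => mobc_le hA (WV_neg (he l) v) a θ x

/-- `Gr ≤ 148 #κ · energy` -/
theorem GrG_le_Phi (hA : A.IsSymm) [∀ k, IsProbabilityMeasure (ν k)] (hp : ∀ k, 0 ≤ p k)
    (J : Finset ℕ) {e w : (ι → Λ) → ι → ℝ} (he : ∀ l x, 0 < e l x) (hw0 : ∀ l x, 0 ≤ w l x)
    (hwe : ∀ l x, w l x ≤ e l x) :
    GrG A p ν E a J e w ≤ 148 * Fintype.card κ * PhiG A p ν E a e := by
  have h1 := GrG_le (ν := ν) (E := E) (a := a) hA hp J he hw0 one_pos le_rfl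
  have h2 := MobG_le (ν := ν) (E := E) (a := a) hA hp he hw0 1
  have h3 := ContG_le (ν := ν) (E := E) (a := a) hA hp he hwe
  have h4 : phiF 1 = 1 := by simp [phiF]
  rw [h4, one_mul] at h1
  have h5 : (0 : ℝ) ≤ 74 * Fintype.card κ := by positivity
  calc GrG A p ν E a J e w ≤ _ := h1
    _ ≤ 74 * Fintype.card κ * (PhiG A p ν E a e + PhiG A p ν E a e) :=
        mul_le_mul_of_nonneg_left (add_le_add (h2.trans h3) h3) h5
    _ = _ := by ring

/-- **from the growth rate to the mobile content** -/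
theorem MobG_ge (hA : A.IsSymm) [∀ k, IsProbabilityMeasure (ν k)] (hp : ∀ k, 0 ≤ p k)
    (J : Finset ℕ) {e w : (ι → Λ) → ι → ℝ} (he : ∀ l x, 0 < e l x) (hw0 : ∀ l x, 0 ≤ w l x)
    (hwe : ∀ l x, w l x ≤ e l x) {θ c : ℝ} (hθ : 0 < θ) (hθ1 : θ ≤ 1)
    (hc : 74 * Fintype.card κ * (phiF θ * PhiG A p ν E a e) ≤ c / 2)
    (hG : c ≤ GrG A p ν E a J e w) :
    c / 2 ≤ 74 * Fintype.card κ * MobG A p ν E a e w θ := by
  have h1 := GrG_le (ν := ν) (E := E) (a := a) hA hp J he hw0 hθ hθ1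
  have h3 := ContG_le (ν := ν) (E := E) (a := a) hA hp he hwe
  have h5 : (0 : ℝ) ≤ 74 * Fintype.card κ := by positivity
  have h6 : 74 * Fintype.card κ * (phiF θ * ContG A p ν E a e w) ≤
      74 * Fintype.card κ * (phiF θ * PhiG A p ν E a e) :=
    mul_le_mul_of_nonneg_left (mul_le_mul_of_nonneg_left h3 (phiF_pos hθ hθ1).le) h5
  rw [mul_add] at h1
  linarith

/-! ### the flow of `L` -/

theorem hasDerivAt_LG (hA : A.IsSymm) [∀ k, IsProbabilityMeasure (ν k)] {b Wm : ℝ}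
    (hb : 0 < b) (hWm : 0 < Wm) {u w : (ι → Λ) → ι → ℝ} (hub : ∀ l x, b ≤ u l x)
    (hw0 : ∀ l x, 0 ≤ w l x) (hw1 : ∀ l x, w l x ≤ Wm) (J : Finset ℕ) (τ : ℝ) :
    HasDerivAt (fun τ : ℝ => LG A p ν E a J (eT u w τ))
      (GrG A p ν E a J (eT u w τ) (wT w τ) +
        ∑ j ∈ J, (ErrG A p ν E (Fj a j) (eT u w τ) (wT w τ) -
          ErrG A p ν E a (eT u w τ) (wT w τ))) τ := by
  have h0 := hasDerivAt_PhiG_log (p := p) (E := E) (f := a) (ν := ν) hA hb hWm hub hw0 hw1 τ
  have hj : ∀ j ∈ J, HasDerivAt (fun τ : ℝ => PhiG A p ν E a (eT u w τ) -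
      PhiG A p ν E (Fj a j) (eT u w τ))
      ((LossG A p ν E (Fj a j) (eT u w τ) (wT w τ) - LossG A p ν E a (eT u w τ) (wT w τ)) +
        (ErrG A p ν E (Fj a j) (eT u w τ) (wT w τ) - ErrG A p ν E a (eT u w τ) (wT w τ)))
      τ := by
    intro j _
    have h1 := hasDerivAt_PhiG_log (p := p) (E := E) (f := Fj a j) (ν := ν) hA hb hWm hub hw0
      hw1 τ
    refine (h0.sub h1).congr_deriv ?_
    ring
  have h2 := HasDerivAt.fun_sum hj
  rw [Finset.sum_add_distrib] at h2
  exact h2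

theorem abs_err_le (hA : A.IsSymm) [∀ k, IsProbabilityMeasure (ν k)] (hp : ∀ k, 0 ≤ p k)
    {e w : (ι → Λ) → ι → ℝ} (he : ∀ l x, 0 < e l x) (hw0 : ∀ l x, 0 ≤ w l x) {C : ℝ}
    (hC : ∀ l x, w l x ≠ 0 → Cau2 E C (ν (l x))) (J : Finset ℕ) :
    |∑ j ∈ J, (ErrG A p ν E (Fj a j) e w - ErrG A p ν E a e w)| ≤
      10 * C * ∑ j ∈ J, (YG A p ν E (Fj a j) e w + YG A p ν E a e w) := by
  refine (Finset.abs_sum_le_sum_abs _ _).trans ?_
  rw [Finset.mul_sum]
  refine Finset.sum_le_sum fun j _ => ?_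
  have h1 := abs_ErrG_le (E := E) (f := Fj a j) (ν := ν) hA hp he hw0 hC
  have h2 := abs_ErrG_le (E := E) (f := a) (ν := ν) hA hp he hw0 hC
  rw [mul_add]
  exact (abs_sub _ _).trans (add_le_add h1 h2)

/-! ### boundary values -/

/-- `∑_l P(l) ∑_x e_x E m_x` -/
noncomputable def EMG (A : Matrix ι ι ℝ) (p : Λ → ℝ) (ν : Λ → Measure ℝ) (E : ℝ)
    (e : (ι → Λ) → ι → ℝ) : ℝ :=
  SG p ν E e e (fun W x => mm A W x)

/-- fourth moment -/
noncomputable def M4G (A : Matrix ι ι ℝ) (p : Λ → ℝ) (ν : Λ → Measure ℝ) (E : ℝ)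
    (a : κ → ι → ℝ) (e : (ι → Λ) → ι → ℝ) : ℝ :=
  AvG p ν E e fun _ W => ∑ x, ∑ y, (-(W x).im) * (-(W y).im) * KK A W x y * d2 a x y ^ 2

theorem sum_En_sub (a : κ → ι → ℝ) (W : ι → ℂ) (j : ℕ) :
    ∑ k, En A W (a k) - ∑ q, En A W (Fj a j q) =
      ∑ x, ∑ y, (-(W x).im) * (-(W y).im) * KK A W x y *
        ∑ k, ((a k x - a k y) ^ 2 - qk j (a k x - a k y)) := by
  rw [sum_Fj a j (fun g => En A W g), ← Finset.sum_sub_distrib]
  have h1 : ∀ k, En A W (a k) - (En A W (tc j (a k)) + En A W (ts j (a k))) =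
      ∑ x, ∑ y, (-(W x).im) * (-(W y).im) * KK A W x y *
        ((a k x - a k y) ^ 2 - qk j (a k x - a k y)) := by
    intro k
    unfold En
    rw [← Finset.sum_add_distrib, ← Finset.sum_sub_distrib]
    refine Finset.sum_congr rfl fun x _ => ?_
    rw [← Finset.sum_add_distrib, ← Finset.sum_sub_distrib]
    refine Finset.sum_congr rfl fun y _ => ?_
    rw [← tc_ts_sq j (a k) x y]
    ring
  simp only [h1, Finset.mul_sum]
  rw [Finset.sum_comm]
  refine Finset.sum_congr rfl fun x _ => ?_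
  rw [Finset.sum_comm]

theorem sum_En_sub_ge (hA : A.IsSymm) {W : ι → ℂ} (hW : ∀ x, (W x).im < 0) (a : κ → ι → ℝ)
    (j : ℕ) :
    (1 / 2) * (∑ k, En A W (a k) -
      8 * Fintype.card κ * 4 ^ j * ∑ x, (-(W x).im) * mm A W x) ≤
      ∑ k, En A W (a k) - ∑ q, En A W (Fj a j q) := by
  rw [sum_En_sub]
  have h1 : ∑ k, En A W (a k) = ∑ x, ∑ y, (-(W x).im) * (-(W y).im) * KK A W x y * d2 a x y := by
    unfold En d2
    simp only [Finset.mul_sum]
    rw [Finset.sum_comm]
    refine Finset.sum_congr rfl fun x _ => ?_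
    rw [Finset.sum_comm]
  have h2 : ∑ x, (-(W x).im) * mm A W x =
      ∑ x, ∑ y, (-(W x).im) * (-(W y).im) * KK A W x y := by
    refine Finset.sum_congr rfl fun x _ => ?_
    rw [mm_eq hA hW, Finset.mul_sum]
    exact Finset.sum_congr rfl fun y _ => by ring
  rw [h1, h2]
  simp only [Finset.mul_sum, ← Finset.sum_sub_distrib]
  refine Finset.sum_le_sum fun x _ => Finset.sum_le_sum fun y _ => ?_
  have h3 : 0 ≤ (-(W x).im) * (-(W y).im) * KK A W x y := by
    have := hW x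
    have := hW y
    exact mul_nonneg (mul_nonneg (by linarith) (by linarith)) (KK_nonneg _ _)
  have h4 : (1 / 2) * (d2 a x y - 8 * Fintype.card κ * 4 ^ j) ≤
      ∑ k, ((a k x - a k y) ^ 2 - qk j (a k x - a k y)) := by
    have h5 : ∑ k, qk j (a k x - a k y) ≤ 4 * Fintype.card κ * 4 ^ j := by
      calc ∑ k, qk j (a k x - a k y) ≤ ∑ _k : κ, 4 * (4 : ℝ) ^ j :=
            Finset.sum_le_sum fun k _ => qk_le_const j _
        _ = _ := by rw [Finset.sum_const, Finset.card_univ, nsmul_eq_mul]; ring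
    have h6 := d2_nonneg a x y
    rw [Finset.sum_sub_distrib]
    change _ ≤ d2 a x y - _
    linarith
  have h7 := mul_le_mul_of_nonneg_left h4 h3
  calc _ = (-(W x).im) * (-(W y).im) * KK A W x y *
        ((1 / 2) * (d2 a x y - 8 * Fintype.card κ * 4 ^ j)) := by ring
    _ ≤ _ := h7
    _ = _ := by rw [Finset.mul_sum]

theorem sum_En_sub_le {W : ι → ℂ} (hW : ∀ x, (W x).im < 0) (a : κ → ι → ℝ) (j : ℕ) :
    ∑ k, En A W (a k) - ∑ q, En A W (Fj a j q) ≤
      (∑ x, ∑ y, (-(W x).im) * (-(W y).im) * KK A W x y * d2 a x y ^ 2) / 4 ^ j := by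
  rw [sum_En_sub, Finset.sum_div]
  refine Finset.sum_le_sum fun x _ => ?_
  rw [Finset.sum_div]
  refine Finset.sum_le_sum fun y _ => ?_
  have h3 : 0 ≤ (-(W x).im) * (-(W y).im) * KK A W x y := by
    have := hW x
    have := hW y
    exact mul_nonneg (mul_nonneg (by linarith) (by linarith)) (KK_nonneg _ _)
  rw [mul_div_assoc]
  refine mul_le_mul_of_nonneg_left ?_ h3
  calc ∑ k, ((a k x - a k y) ^ 2 - qk j (a k x - a k y))
      ≤ ∑ k, (a k x - a k y) ^ 4 / 4 ^ j := Finset.sum_le_sum fun k _ => sq_sub_qk_le j _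
    _ = (∑ k, ((a k x - a k y) ^ 2) ^ 2) / 4 ^ j := by
        rw [Finset.sum_div]
        exact Finset.sum_congr rfl fun k _ => by ring
    _ ≤ d2 a x y ^ 2 / 4 ^ j := by
        gcongr
        unfold d2
        rw [sq (∑ k, (a k x - a k y) ^ 2), Finset.sum_mul]
        refine Finset.sum_le_sum fun k _ => ?_
        rw [sq ((a k x - a k y) ^ 2)]
        exact mul_le_mul_of_nonneg_left (Finset.single_le_sum
          (f := fun k => (a k x - a k y) ^ 2) (fun k _ => sq_nonneg _) (Finset.mem_univ k))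
          (sq_nonneg _)

end avg

end P365H219
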